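import Vale.Agent.P157.Parisi.Sphere.Main.Fresh
import Vale.Agent.P157.Parisi.Main.Mass

/-! Raising the intensity of the patterns. -/

noncomputable section

open MeasureTheory ProbabilityTheory Filter
open scoped BigOperators NNReal ENNReal Topology

namespace Vale.Agent.P157.Parisi.Sphere.Main

open Vale.Agent.P157.Parisi.Main (smooth_nonneg smooth_meas ae_xLaw mp_cut abs_patValue_le treeExp_const unitObs unitObs_good unitObs_val)

open Vale.Agent.P168.Toolkit (integral_superposition integrable_poisson_of_linear integrable_count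
  integral_count)

variable {f : ℝ → ℝ} {A s μ : ℝ} {N L : ℕ} {P : Pts N}

/-- A functional growing at most linearly in the number of patterns. -/
structure Tame (f : ℝ → ℝ) (s : ℝ) (x : Fin L → ℝ) (Φ : (Conf P → ℝ) → ℝ)
    (B : (PertIdx N L → ℝ) → ℝ) : Prop where
  meas : Measurable Φ
  bnd : Integrable B (gam (PertIdx N L))
  nonneg : ∀ J, 0 ≤ B J
  le : ∀ m g J, |Φ fun σ => patH f m g σ + pertH s x J σ| ≤ B J * ((m : ℝ) + 1)

variable {x : Fin L → ℝ} {Φ : (Conf P → ℝ) → ℝ} {B : (PertIdx N L → ℝ) → ℝ}

lemma measurable_hamSum (hf : Smooth f A) :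
    Measurable fun d : Dis N L => fun σ : Conf P => patH f d.1 d.2.1 σ + pertH s x d.2.2 σ :=
  measurable_pi_lambda _ fun σ =>
    ((measurable_patH hf σ).comp (measurable_fst.prodMk measurable_snd.fst)).add
      ((measurable_pertH (s := s) σ).comp (measurable_const.prodMk measurable_snd.snd))

lemma Tame.integrable (hΦ : Tame f s x Φ B) (hf : Smooth f A) :
    Integrable (fun d => Φ (totalH (P := P) f s x d)) (disLaw N L μ) := by
  refine Integrable.mono' (g := fun d => B d.2.2 * ((d.1 : ℝ) + 1)) ?_
    ((hΦ.meas.comp (measurable_hamSum hf)).aestronglyMeasurable)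
    (Eventually.of_forall fun d => hΦ.le d.1 d.2.1 d.2.2)
  have h := Integrable.mul_prod (((integrable_count μ.toNNReal).add (integrable_const (1 : ℝ))))
    (hΦ.bnd.comp_snd (Measure.infinitePi fun _ : ℕ => gam (Fin N)))
  exact h.congr (Eventually.of_forall fun d => by simp; ring)

/-- The mean with exactly `n` patterns. -/
def countMean (f : ℝ → ℝ) (s : ℝ) (x : Fin L → ℝ) (Φ : (Conf P → ℝ) → ℝ) (n : ℕ) : ℝ :=
  ∫ J, ∫ g, Φ (fun σ => patH f n g σ + pertH s x J σ)
    ∂(Measure.infinitePi fun _ : ℕ => gam (Fin N)) ∂gam (PertIdx N L)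

lemma Tame.integrable_gJ (hΦ : Tame f s x Φ B) (hf : Smooth f A) (n : ℕ) :
    Integrable (fun p : (ℕ → Fin N → ℝ) × (PertIdx N L → ℝ) =>
      Φ fun σ => patH f n p.1 σ + pertH s x p.2 σ)
      ((Measure.infinitePi fun _ : ℕ => gam (Fin N)).prod (gam (PertIdx N L))) := by
  refine Integrable.mono' (g := fun p => B p.2 * ((n : ℝ) + 1)) ((hΦ.bnd.comp_snd _).mul_const _)
    (hΦ.meas.comp ((measurable_hamSum hf).comp (f := fun p : (ℕ → Fin N → ℝ) × (PertIdx N L → ℝ) =>
      (n, p.1, p.2)) (by fun_prop))).aestronglyMeasurable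
    (Eventually.of_forall fun p => hΦ.le n p.1 p.2)

lemma disMean_eq (hΦ : Tame f s x Φ B) (hf : Smooth f A) :
    disMean f s x P μ Φ = ∫ n, countMean f s x Φ n ∂poissonMeasure μ.toNNReal := by
  rw [disMean, integral_dis (hΦ.integrable hf)]
  exact integral_congr_ae (Eventually.of_forall fun n => integral_integral_swap (hΦ.integrable_gJ hf n))

lemma abs_countMean_le (hΦ : Tame f s x Φ B) (n : ℕ) :
    |countMean f s x Φ n| ≤ (∫ J, B J ∂gam (PertIdx N L)) * ((n : ℝ) + 1) := by
  rw [← integral_mul_const, ← Real.norm_eq_abs, countMean]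
  refine norm_integral_le_of_norm_le (hΦ.bnd.mul_const _) (Eventually.of_forall fun J => ?_)
  simpa using norm_integral_le_of_norm_le_const (μ := Measure.infinitePi fun _ : ℕ => gam (Fin N))
    (Eventually.of_forall fun g => show ‖Φ fun σ => patH f n g σ + pertH s x J σ‖ ≤
      B J * ((n : ℝ) + 1) from hΦ.le n g J)

lemma Tame.fresh (hΦ : Tame f s x Φ B) (hf : Smooth f A) (k : ℕ) :
    Tame f s x (freshMean f Φ k) (fun J => B J * ((k : ℝ) + 1)) := by
  refine ⟨measurable_freshMean hf hΦ.meas k, hΦ.bnd.mul_const _,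
    fun J => mul_nonneg (hΦ.nonneg J) (by positivity), fun n g J => ?_⟩
  have h : ∀ g' : Fin k → Fin N → ℝ,
      |Φ fun σ => patH f n g σ + pertH s x J σ + ∑ j, f (dot (g' j) (unitVec σ))| ≤
        B J * (((n + k : ℕ) : ℝ) + 1) := by
    intro g'
    set h : ℕ → Fin N → ℝ := fun i =>
      if i < n then g i else if h : i - n < k then g' ⟨i - n, h⟩ else 0
    have e : (fun σ : Conf P => patH f n g σ + pertH s x J σ + ∑ j, f (dot (g' j) (unitVec σ))) =
        fun σ => patH f (n + k) h σ + pertH s x J σ := by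
      funext σ
      rw [patH_cut, patH_congr f (g := h) (g' := g) fun i hi => by simp [h, hi], add_right_comm]
      congr 1
      refine congrArg _ (Finset.sum_congr rfl fun j _ => ?_)
      simp [h, j.isLt]
    rw [e]
    exact hΦ.le _ _ _
  have h' := norm_integral_le_of_norm_le_const (μ := Measure.pi fun _ : Fin k => gam (Fin N))
    (Eventually.of_forall fun g' => show
      ‖Φ fun σ => patH f n g σ + pertH s x J σ + ∑ j, f (dot (g' j) (unitVec σ))‖ ≤
        B J * (((n + k : ℕ) : ℝ) + 1) from h g')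
  simp only [probReal_univ, mul_one, Real.norm_eq_abs] at h'
  refine h'.trans ?_
  rw [mul_assoc]
  refine mul_le_mul_of_nonneg_left ?_ (hΦ.nonneg J)
  push_cast
  nlinarith [mul_nonneg (Nat.cast_nonneg (α := ℝ) n) (Nat.cast_nonneg (α := ℝ) k)]

lemma countMean_add (hΦ : Tame f s x Φ B) (hf : Smooth f A) (n k : ℕ) :
    countMean f s x Φ (n + k) = countMean f s x (freshMean f Φ k) n := by
  refine integral_congr_ae (Eventually.of_forall fun J => ?_)
  exact integral_shift hf x n k J hΦ.meas fun m g => hΦ.le m g J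

/-- Raising the intensity by `β` adds a Poisson number of fresh patterns. -/
lemma disMean_add (hΦ : Tame f s x Φ B) (hf : Smooth f A) {β : ℝ} (hμ : 0 ≤ μ) (hβ : 0 ≤ β) :
    disMean f s x P (μ + β) Φ =
      ∫ k, disMean f s x P μ (freshMean f Φ k) ∂poissonMeasure β.toNNReal := by
  set C := ∫ J, B J ∂gam (PertIdx N L)
  have hC : 0 ≤ C := integral_nonneg hΦ.nonneg
  have hint : ∀ r : ℝ≥0, Integrable (countMean f s x Φ) (poissonMeasure r) := fun r =>
    integrable_poisson_of_linear r (A := C) (B := C) fun n =>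
      (abs_countMean_le hΦ n).trans_eq (by ring)
  rw [disMean_eq hΦ hf, Real.toNNReal_add hμ hβ, integral_superposition (hint _)]
  simp only [countMean_add hΦ hf]
  rw [integral_integral_swap]
  · exact integral_congr_ae (Eventually.of_forall fun k => (disMean_eq (hΦ.fresh hf k) hf).symm)
  · refine Integrable.mono' (g := fun p : ℕ × ℕ => C * ((p.1 : ℝ) + 1) * ((p.2 : ℝ) + 1)) ?_
      Measurable.of_discrete.aestronglyMeasurable (Eventually.of_forall fun p => ?_)
    · exact Integrable.mul_prod (((integrable_count μ.toNNReal).add (integrable_const (1 : ℝ))).const_mul C)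
        ((integrable_count β.toNNReal).add (integrable_const (1 : ℝ)))
    · refine (abs_countMean_le (hΦ.fresh hf p.2) p.1).trans_eq ?_
      rw [integral_mul_const]
      ring

/-- The average over replicas of a Gibbs measure. -/
def repAvg (n : ℕ) (F : (Fin n → Conf P) → ℝ) (H : Conf P → ℝ) : ℝ :=
  ∑ σ : Fin n → Conf P, (∏ l, gibbs H (σ l)) * F σ

lemma abs_repAvg_le {n : ℕ} {F : (Fin n → Conf P) → ℝ} {C : ℝ} (hF : ∀ σ, |F σ| ≤ C)
    (H : Conf P → ℝ) : |repAvg n F H| ≤ C := by
  have h1 : ∑ σ : Fin n → Conf P, ∏ l, gibbs H (σ l) = 1 := by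
    rw [← Fintype.prod_sum]; simp [sum_gibbs]
  calc |repAvg n F H| ≤ ∑ σ : Fin n → Conf P, |(∏ l, gibbs H (σ l)) * F σ| :=
        Finset.abs_sum_le_sum_abs _ _
    _ ≤ ∑ σ : Fin n → Conf P, (∏ l, gibbs H (σ l)) * C := Finset.sum_le_sum fun σ _ => by
        have h0 : 0 ≤ ∏ l, gibbs H (σ l) := Finset.prod_nonneg fun l _ => gibbs_nonneg H _
        rw [abs_mul, abs_of_nonneg h0]
        exact mul_le_mul_of_nonneg_left (hF σ) h0
    _ = C := by rw [← Finset.sum_mul, h1, one_mul]

lemma measurable_repAvg (n : ℕ) (F : (Fin n → Conf P) → ℝ) : Measurable (repAvg n F) :=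
  Finset.measurable_sum _ fun σ _ =>
    (Finset.measurable_prod _ fun l _ => measurable_gibbs (σ l)).mul_const _

lemma tame_repAvg (n : ℕ) {F : (Fin n → Conf P) → ℝ} {C : ℝ} (hC : 0 ≤ C)
    (hF : ∀ σ, |F σ| ≤ C) : Tame f s x (repAvg n F) fun _ => C :=
  ⟨measurable_repAvg n F, integrable_const _, fun _ => hC, fun m _ _ =>
    (abs_repAvg_le hF _).trans (le_mul_of_one_le_right hC (by simp))⟩

lemma measurable_confLog : Measurable (confLog (P := P)) :=
  ((Finset.measurable_sum _ fun σ _ => (measurable_pi_apply σ).exp).div_const _).log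

lemma tame_confLog (hf : Smooth f A) (hx : ∀ i, x i ∈ Set.Icc (1 : ℝ) 2) :
    Tame (N := N) f s x (confLog (P := P)) fun J => A + pertBound s L J := by
  have hA := smooth_nonneg hf
  have hp : ∀ J : PertIdx N L → ℝ, 0 ≤ pertBound s L J := fun J =>
    Finset.sum_nonneg fun c _ => by positivity
  refine ⟨measurable_confLog, (integrable_const A).add integrable_pertBound,
    fun J => add_nonneg hA (hp J), fun m g J => ?_⟩
  refine (abs_confLog_le fun σ => (abs_add_le _ _).trans
    (add_le_add (abs_patH_le hf m g σ) (abs_pertH_le hx J σ))).trans ?_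
  nlinarith [hp J, mul_nonneg (Nat.cast_nonneg (α := ℝ) m) (hp J)]

lemma repMean_sys (n : ℕ) (F : (Fin n → Conf P) → ℝ) :
    (sysState P f s x μ).repMean n F = disMean f s x P μ (repAvg n F) := rfl

lemma logPartS_disMean : logPartS P f s x μ = disMean f s x P μ (confLog (P := P)) := rfl

/-- `n` replicas of the system with intensity raised. -/
lemma repMean_add (hf : Smooth f A) {β : ℝ} (hμ : 0 ≤ μ) (hβ : 0 ≤ β) {n : ℕ} (hn : 0 < n)
    (F : (Fin n → Fin n → ℝ) → ℝ) :
    (sysState P f s x (μ + β)).repMean n (fun σ => F (overlaps σ)) =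
      ∫ k, (sysState P f s x μ).patMean f F (fun _ : Fin k => unitObs hn)
        ∂poissonMeasure β.toNNReal := by
  obtain ⟨C, hC⟩ := (Set.finite_range fun σ : Fin n → Conf P => |F (overlaps σ)|).bddAbove
  have hC' : ∀ σ, |F (overlaps σ)| ≤ max C 0 := fun σ => (hC ⟨σ, rfl⟩).trans (le_max_left _ _)
  rw [repMean_sys, disMean_add (tame_repAvg n (le_max_right C 0) hC') hf hμ hβ]
  refine integral_congr_ae (Eventually.of_forall fun k => ?_)
  refine integral_congr_ae (Eventually.of_forall fun d => ?_)
  refine integral_congr_ae (Eventually.of_forall fun g => ?_)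
  show repAvg n (fun σ => F (overlaps σ))
    (fun σ => totalH f s x d σ + ∑ j, f (dot (g j) (unitVec σ))) = _
  rw [repAvg, repAvg_add]
  simp only [unitObs, Obs.eval, mul_one, Finset.prod_const_one, gibbs, sysState]

/-- The log partition with intensity raised. -/
lemma logPartS_add (hf : Smooth f A) (hx : ∀ i, x i ∈ Set.Icc (1 : ℝ) 2) {β : ℝ} (hμ : 0 ≤ μ)
    (hβ : 0 ≤ β) :
    logPartS P f s x (μ + β) - logPartS P f s x μ =
      ∫ k, (sysState P f s x μ).logMean f k ∂poissonMeasure β.toNNReal := by
  have hT := tame_confLog (P := P) (s := s) hf hx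
  rw [logPartS_disMean, disMean_add hT hf hμ hβ, logPartS_disMean]
  have hb : ∀ k (H : Conf P → ℝ) (g : Fin k → Fin N → ℝ),
      |(confLog (P := P)) (fun σ => H σ + ∑ j, f (dot (g j) (unitVec σ))) - (confLog (P := P)) H| ≤ k * A := by
    intro k H g
    rw [confLog_add]
    have hG : ∀ σ : Conf P, |∑ j, f (dot (g j) (unitVec σ))| ≤ k * A := fun σ =>
      (Finset.abs_sum_le_sum_abs _ _).trans ((Finset.sum_le_sum fun j _ => hf.b0 _).trans_eq (by simp))
    have hp : 0 < ∑ σ, gibbs H σ * Real.exp (∑ j, f (dot (g j) (unitVec σ))) :=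
      Finset.sum_pos (fun σ _ => mul_pos (div_pos (Real.exp_pos _) (sum_exp_pos H)) (Real.exp_pos _))
        Finset.univ_nonempty
    rw [abs_le]
    show -_ ≤ Real.log (∑ σ, gibbs H σ * _) ∧ Real.log (∑ σ, gibbs H σ * _) ≤ _
    rw [Real.le_log_iff_exp_le hp, Real.log_le_iff_le_exp hp]
    constructor
    · calc Real.exp (-(k * A)) = ∑ σ, gibbs H σ * Real.exp (-(k * A)) := by
            rw [← Finset.sum_mul, sum_gibbs, one_mul]
        _ ≤ _ := Finset.sum_le_sum fun σ _ => mul_le_mul_of_nonneg_left
            (Real.exp_le_exp.2 (abs_le.1 (hG σ)).1) (gibbs_nonneg H σ)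
    · calc _ ≤ ∑ σ, gibbs H σ * Real.exp (k * A) := Finset.sum_le_sum fun σ _ =>
            mul_le_mul_of_nonneg_left (Real.exp_le_exp.2 (abs_le.1 (hG σ)).2) (gibbs_nonneg H σ)
        _ = _ := by rw [← Finset.sum_mul, sum_gibbs, one_mul]
  have hi : ∀ k (H : Conf P → ℝ), Integrable (fun g : Fin k → Fin N → ℝ =>
      (confLog (P := P)) fun σ => H σ + ∑ j, f (dot (g j) (unitVec σ))) (Measure.pi fun _ => gam (Fin N)) := by
    intro k H
    refine integrable_of_abs_le (K := |(confLog (P := P)) H| + k * A)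
      (measurable_confLog.comp (measurable_pi_lambda _ fun σ => measurable_const.add
        (Finset.measurable_sum _ fun j _ => (smooth_meas hf).comp (by unfold dot; fun_prop))))
      fun g => ?_
    have := hb k H g
    have := abs_sub_abs_le_abs_sub ((confLog (P := P)) fun σ => H σ + ∑ j, f (dot (g j) (unitVec σ))) ((confLog (P := P)) H)
    linarith
  have hsub : ∀ k (H : Conf P → ℝ), freshMean f (confLog (P := P)) k H - (confLog (P := P)) H =
      ∫ g : Fin k → Fin N → ℝ, ((confLog (P := P)) (fun σ => H σ + ∑ j, f (dot (g j) (unitVec σ))) - (confLog (P := P)) H)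
        ∂(Measure.pi fun _ => gam (Fin N)) := by
    intro k H
    rw [integral_sub (hi k H) (integrable_const _), freshMean]
    simp
  have hdiff : ∀ k, disMean f s x P μ (freshMean f (confLog (P := P)) k) - disMean f s x P μ (confLog (P := P)) =
      (sysState P f s x μ).logMean f k := by
    intro k
    rw [disMean, disMean, ← integral_sub ((hT.fresh hf k).integrable hf) (hT.integrable hf)]
    refine integral_congr_ae (Eventually.of_forall fun d => ?_)
    show freshMean f (confLog (P := P)) k (totalH (P := P) f s x d) - (confLog (P := P)) (totalH (P := P) f s x d) = _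
    rw [hsub]
    exact integral_congr_ae (Eventually.of_forall fun g => confLog_add _ _)
  have hint : Integrable (fun k => disMean f s x P μ (freshMean f (confLog (P := P)) k))
      (poissonMeasure β.toNNReal) := by
    refine integrable_poisson_of_linear _ (A := |disMean f s x P μ (confLog (P := P))|) (B := A) fun k => ?_
    have hd : ∀ d : Dis N L, ‖freshMean f (confLog (P := P)) k (totalH (P := P) f s x d) -
        (confLog (P := P)) (totalH (P := P) f s x d)‖ ≤ k * A := fun d => by
      rw [hsub]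
      simpa using norm_integral_le_of_norm_le_const (μ := Measure.pi fun _ : Fin k => gam (Fin N))
        (Eventually.of_forall fun g => show ‖(confLog (P := P)) (fun σ => totalH f s x d σ +
            ∑ j, f (dot (g j) (unitVec σ))) - (confLog (P := P)) (totalH (P := P) f s x d)‖ ≤ (k : ℝ) * A from
          hb k (totalH (P := P) f s x d) g)
    have h : |disMean f s x P μ (freshMean f (confLog (P := P)) k) - disMean f s x P μ (confLog (P := P))| ≤ k * A := by
      rw [disMean, disMean, ← integral_sub ((hT.fresh hf k).integrable hf) (hT.integrable hf)]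
      simpa using norm_integral_le_of_norm_le_const (μ := disLaw N L μ) (Eventually.of_forall hd)
    have := abs_sub_abs_le_abs_sub (disMean f s x P μ (freshMean f (confLog (P := P)) k))
      (disMean f s x P μ (confLog (P := P)))
    linarith
  rw [← show ∫ _k : ℕ, disMean f s x P μ (confLog (P := P)) ∂poissonMeasure β.toNNReal =
    disMean f s x P μ (confLog (P := P)) by simp, ← integral_sub hint (integrable_const _)]
  exact integral_congr_ae (Eventually.of_forall hdiff)

end Vale.Agent.P157.Parisi.Sphere.Main
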