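import Vale.Agent.P157.Parisi.Sphere.Statements
import Vale.Agent.P157.Parisi.Main.Mass
import Vale.Agent.P157.Laws
import Vale.Agent.P168.Limit.ToolkitPoisson
import Vale.Agent.P168.Limit.Toolkit

/-! Basic facts on the perturbed system: measurability, bounds, fresh patterns. -/

noncomputable section

open MeasureTheory ProbabilityTheory Filter
open scoped BigOperators NNReal ENNReal Topology

namespace Vale.Agent.P157.Parisi.Sphere.Main

open Vale.Agent.P157.Parisi.Main (smooth_nonneg smooth_meas ae_xLaw mp_cut abs_patValue_le treeExp_const unitObs unitObs_good unitObs_val)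

variable {f : ℝ → ℝ} {A s μ : ℝ} {N L : ℕ} {P : Pts N}

/-- The pattern part of the Hamiltonian. -/
def patH (f : ℝ → ℝ) (n : ℕ) (g : ℕ → Fin N → ℝ) (σ : Conf P) : ℝ :=
  ∑ a ∈ Finset.range n, f (dot (g a) (unitVec σ))

lemma abs_patH_le (hf : Smooth f A) (n : ℕ) (g : ℕ → Fin N → ℝ) (σ : Conf P) :
    |patH f n g σ| ≤ n * A :=
  (Finset.abs_sum_le_sum_abs _ _).trans
    ((Finset.sum_le_sum fun a _ => hf.b0 _).trans_eq (by simp))

lemma measurable_patH (hf : Smooth f A) (σ : Conf P) :
    Measurable fun p : ℕ × (ℕ → Fin N → ℝ) => patH f p.1 p.2 σ := by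
  refine measurable_from_prod_countable_right fun n => ?_
  show Measurable fun g : ℕ → Fin N → ℝ => ∑ a ∈ Finset.range n, f (dot (g a) (unitVec σ))
  refine Finset.measurable_sum _ fun a _ => (smooth_meas hf).comp ?_
  unfold dot; fun_prop

lemma measurable_pertH (σ : Conf P) :
    Measurable fun p : (Fin L → ℝ) × (PertIdx N L → ℝ) => pertH s p.1 p.2 σ := by
  unfold pertH; fun_prop

lemma totalH_eq (x : Fin L → ℝ) (d : Dis N L) (σ : Conf P) :
    totalH f s x d σ = patH f d.1 d.2.1 σ + pertH s x d.2.2 σ := rfl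

lemma measurable_totalH (hf : Smooth f A) (σ : Conf P) :
    Measurable fun p : (Fin L → ℝ) × Dis N L => totalH f s p.1 p.2 σ := by
  simp only [totalH_eq]
  exact ((measurable_patH hf σ).comp (measurable_snd.fst.prodMk measurable_snd.snd.fst)).add
    ((measurable_pertH (s := s) σ).comp (measurable_fst.prodMk measurable_snd.snd.snd))

lemma K_pos (P : Pts N) : (0 : ℝ) < P.K := by exact_mod_cast P.pos

lemma card_conf (P : Pts N) : Fintype.card (Conf P) = P.K := Fintype.card_fin _

lemma sum_exp_pos (H : Conf P → ℝ) : 0 < ∑ σ, Real.exp (H σ) :=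
  Finset.sum_pos (fun _ _ => Real.exp_pos _) Finset.univ_nonempty

lemma sysState_good (hf : Smooth f A) (x : Fin L → ℝ) : (sysState P f s x μ).IsGood where
  prob := inferInstanceAs (IsProbabilityMeasure (disLaw N L μ))
  meas σ := by
    have h : ∀ τ : Conf P, Measurable fun d : Dis N L => Real.exp (totalH f s x d τ) := fun τ =>
      ((measurable_totalH hf τ).comp measurable_prodMk_left).exp
    exact (h σ).div (Finset.measurable_sum _ fun τ _ => h τ)
  nonneg d σ := div_nonneg (Real.exp_pos _).le (sum_exp_pos _).le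
  sum_one d := by
    show ∑ σ, Real.exp (totalH f s x d σ) / _ = 1
    rw [← Finset.sum_div, div_self (sum_exp_pos _).ne']

/-- The normalised log-average over the cube. -/
def confLog (H : Conf P → ℝ) : ℝ := Real.log ((∑ σ, Real.exp (H σ)) / (P.K : ℝ))

lemma abs_confLog_le {H : Conf P → ℝ} {B : ℝ} (h : ∀ σ, |H σ| ≤ B) : |confLog H| ≤ B := by
  have hp : 0 < (∑ σ, Real.exp (H σ)) / (P.K : ℝ) := div_pos (sum_exp_pos H) (K_pos P)
  have hc : ∀ b : ℝ, (∑ _σ : Conf P, Real.exp b) / (P.K : ℝ) = Real.exp b := fun b => by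
    have := (K_pos P).ne'
    simp [card_conf, this]
  rw [abs_le, confLog, Real.le_log_iff_exp_le hp, Real.log_le_iff_le_exp hp, ← hc (-B), ← hc B]
  exact ⟨div_le_div_of_nonneg_right
      (Finset.sum_le_sum fun σ _ => Real.exp_le_exp.2 (abs_le.1 (h σ)).1) (by positivity),
    div_le_div_of_nonneg_right
      (Finset.sum_le_sum fun σ _ => Real.exp_le_exp.2 (abs_le.1 (h σ)).2) (by positivity)⟩

lemma confLog_add (H G : Conf P → ℝ) :
    confLog (fun σ => H σ + G σ) - confLog H =
      Real.log (∑ σ, Real.exp (H σ) / (∑ τ, Real.exp (H τ)) * Real.exp (G σ)) := by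
  have h1 := sum_exp_pos fun σ => H σ + G σ
  have h2 := sum_exp_pos H
  rw [confLog, confLog, ← Real.log_div (div_pos h1 (K_pos P)).ne'
    (div_pos h2 (K_pos P)).ne']
  congr 1
  simp only [Real.exp_add, div_mul_eq_mul_div, ← Finset.sum_div]
  have := (K_pos P).ne'
  field_simp

/-- The constant in the bound on the perturbation. -/
def pertBound (s : ℝ) (L : ℕ) (J : PertIdx N L → ℝ) : ℝ := ∑ c, |J c| * (|s| * 2)

lemma abs_unitVec_le (σ : Conf P) (i : Fin N) : |unitVec σ i| ≤ 1 := by
  rw [← sq_le_one_iff_abs_le_one, ← P.norm_one i.pos σ]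
  exact Finset.single_le_sum (f := fun j => P.u σ j ^ 2) (fun j _ => sq_nonneg _) (Finset.mem_univ i)

lemma abs_overlap_le (σ τ : Conf P) : |overlap σ τ| ≤ 1 := by
  rcases Nat.eq_zero_or_pos N with h | h
  · subst h; simp [overlap, dot]
  have hs := Finset.sum_mul_sq_le_sq_mul_sq Finset.univ (unitVec σ) (unitVec τ)
  rw [show ∑ i, unitVec σ i ^ 2 = 1 from P.norm_one h σ, show ∑ i, unitVec τ i ^ 2 = 1 from P.norm_one h τ, one_mul] at hs
  exact (sq_le_one_iff_abs_le_one _).1 hs

lemma abs_pertH_le {x : Fin L → ℝ} (hx : ∀ i, x i ∈ Set.Icc (1 : ℝ) 2) (J : PertIdx N L → ℝ)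
    (σ : Conf P) : |pertH s x J σ| ≤ pertBound s L J := by
  refine (Finset.abs_sum_le_sum_abs _ _).trans (Finset.sum_le_sum fun c _ => ?_)
  rw [abs_mul]
  refine mul_le_mul_of_nonneg_left ?_ (abs_nonneg _)
  rw [abs_mul, abs_mul, abs_mul, abs_pow, Finset.abs_prod, mul_assoc, mul_assoc]
  refine mul_le_mul_of_nonneg_left ?_ (abs_nonneg _)
  have h1 : |x c.1| ≤ 2 := abs_le.2 ⟨by linarith [(hx c.1).1], (hx c.1).2⟩
  have h2 : |(1 : ℝ) / 2| ^ (c.1.val + 1) ≤ 1 := pow_le_one₀ (abs_nonneg _) (by norm_num)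
  have h3 : ∏ i, |unitVec σ (c.2 i)| ≤ 1 :=
    Finset.prod_le_one (fun i _ => abs_nonneg _) fun i _ => abs_unitVec_le _ _
  calc |x c.1| * (|(1 : ℝ) / 2| ^ (c.1.val + 1) * ∏ i, |unitVec σ (c.2 i)|) ≤ 2 * (1 * 1) := by
        gcongr
    _ = 2 := by norm_num

lemma integrable_pertBound : Integrable (pertBound (N := N) s L) (gam (PertIdx N L)) :=
  integrable_finsetSum _ fun c _ => ((P168.Toolkit.integrable_eval_gaussPi c).abs).mul_const _

lemma logPartS_eq (x : Fin L → ℝ) :
    logPartS P f s x μ = ∫ d, confLog (totalH (P := P) f s x d) ∂disLaw N L μ := rfl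

/-- A bound for the log partition of the perturbed system. -/
def disBound (A s : ℝ) (d : Dis N L) : ℝ := d.1 * A + pertBound s L d.2.2

lemma abs_confLog_totalH_le (hf : Smooth f A) {x : Fin L → ℝ} (hx : ∀ i, x i ∈ Set.Icc (1 : ℝ) 2)
    (d : Dis N L) : |confLog (totalH (P := P) f s x d)| ≤ disBound A s d :=
  abs_confLog_le fun σ => (abs_add_le _ _).trans
    (add_le_add (abs_patH_le hf _ _ σ) (abs_pertH_le hx _ σ))

lemma integrable_disBound (A s : ℝ) : Integrable (disBound (N := N) (L := L) A s) (disLaw N L μ) := by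
  refine Integrable.add ?_ ?_
  · exact ((P168.Toolkit.integrable_count μ.toNNReal).mul_const A).comp_fst _
  · exact ((integrable_pertBound (N := N) (L := L) (s := s)).comp_snd
      (Measure.infinitePi fun _ : ℕ => gam (Fin N))).comp_snd (poissonMeasure μ.toNNReal)

lemma measurable_confLog_totalH (hf : Smooth f A) :
    Measurable fun p : (Fin L → ℝ) × Dis N L => confLog (totalH (P := P) f s p.1 p.2) :=
  ((Finset.measurable_sum _ fun σ _ => (measurable_totalH hf σ).exp).div_const _).log

lemma integrable_confLog (hf : Smooth f A) {x : Fin L → ℝ} (hx : ∀ i, x i ∈ Set.Icc (1 : ℝ) 2) :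
    Integrable (fun d => confLog (totalH (P := P) f s x d)) (disLaw N L μ) :=
  (integrable_disBound A s).mono'
    ((measurable_confLog_totalH hf).comp measurable_prodMk_left).aestronglyMeasurable
    (Eventually.of_forall fun d => abs_confLog_totalH_le hf hx d)

lemma measurable_logPartS (hf : Smooth f A) :
    Measurable fun x : Fin L → ℝ => logPartS P f s x μ :=
  ((measurable_confLog_totalH hf).stronglyMeasurable.integral_prod_right'
    (ν := disLaw N L μ)).measurable

lemma integrable_logPartS (hf : Smooth f A) :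
    Integrable (fun x => logPartS P f s x μ) (xLaw L) := by
  refine Integrable.of_bound (measurable_logPartS hf).aestronglyMeasurable
    (∫ d, disBound A s d ∂disLaw N L μ) ((ae_xLaw L).mono fun x hx => ?_)
  exact (norm_integral_le_integral_norm _).trans (integral_mono (integrable_confLog hf hx).norm
    (integrable_disBound A s) fun d => abs_confLog_totalH_le hf hx d)

end Vale.Agent.P157.Parisi.Sphere.Main
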