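import Vale.Agent.P157.Parisi.Sphere.Main.Limit
import Vale.Agent.P157.Polar

/-! The perturbed log-partition against the pressure. -/

noncomputable section

open MeasureTheory ProbabilityTheory Filter
open scoped BigOperators NNReal ENNReal Topology

namespace Vale.Agent.P157.Parisi.Sphere.Main

open Vale.Agent.P157.Parisi.Main (smooth_nonneg smooth_meas ae_xLaw mp_cut abs_patValue_le treeExp_const unitObs unitObs_good unitObs_val)

open Vale.Agent.P168.Toolkit (integrable_count integrable_poisson_of_linear)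

variable {f : ℝ → ℝ} {A α s μ : ℝ} {N L : ℕ} {P : Pts N}

/-- The coefficient of a perturbation coordinate. -/
def pertCoef (s : ℝ) (x : Fin L → ℝ) (σ : Conf P) (c : PertIdx N L) : ℝ :=
  s * x c.1 * (1 / 2) ^ (c.1.val + 1) * ∏ i, unitVec σ (c.2 i)

lemma pertH_coef (x : Fin L → ℝ) (J : PertIdx N L → ℝ) (σ : Conf P) :
    pertH s x J σ = ∑ c, J c * pertCoef s x σ c := rfl

lemma sum_unitVec_sq (hN : 0 < N) (σ : Conf P) : ∑ i, unitVec σ i ^ 2 = 1 := P.norm_one hN σ

lemma sum_pertCoef_sq (hN : 0 < N) {x : Fin L → ℝ} (hx : ∀ i, x i ∈ Set.Icc (1 : ℝ) 2)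
    (σ : Conf P) : ∑ c, pertCoef s x σ c ^ 2 ≤ 2 * s ^ 2 := by
  have h : ∑ c, pertCoef s x σ c ^ 2 =
      ∑ p : Fin L, (s * x p * (1 / 2) ^ (p.val + 1)) ^ 2 := by
    rw [Fintype.sum_sigma]
    refine Finset.sum_congr rfl fun p _ => ?_
    simp only [pertCoef, mul_pow, ← Finset.prod_pow, ← Finset.mul_sum]
    rw [← Fintype.sum_pow (fun j => unitVec σ j ^ 2), sum_unitVec_sq hN, one_pow, mul_one]
  rw [h]
  refine (Finset.sum_le_sum (g := fun p : Fin L => s ^ 2 * (1 / 4) ^ p.val) fun p _ => ?_).trans ?_
  · have h1 : x p ^ 2 ≤ 4 := by nlinarith [(hx p).1, (hx p).2]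
    calc (s * x p * (1 / 2) ^ (p.val + 1)) ^ 2 =
          s ^ 2 * (1 / 4 : ℝ) ^ p.val * (x p ^ 2 / 4) := by
          rw [mul_pow, mul_pow, ← pow_mul, mul_comm (p.val + 1) 2, pow_mul, pow_succ]
          norm_num; ring
      _ ≤ s ^ 2 * (1 / 4) ^ p.val * 1 :=
          mul_le_mul_of_nonneg_left (by linarith) (by positivity)
      _ = _ := mul_one _
  · rw [← Finset.mul_sum, mul_comm 2, Fin.sum_univ_eq_sum_range fun p => (1 / 4 : ℝ) ^ p]
    refine mul_le_mul_of_nonneg_left ?_ (sq_nonneg s)
    have h4 := geom_sum_Ico_le_of_lt_one (m := 0) (n := L) (show (0 : ℝ) ≤ 1 / 4 by norm_num)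
      (by norm_num)
    rw [← Finset.range_eq_Ico] at h4
    exact h4.trans (by norm_num)

/-- The perturbation changes the log-average by at most half its variance. -/
lemma pert_gap (hN : 0 < N) {x : Fin L → ℝ} (hx : ∀ i, x i ∈ Set.Icc (1 : ℝ) 2) (H : Conf P → ℝ) :
    |(∫ J, (confLog (P := P)) (fun σ => H σ + pertH s x J σ) ∂gam (PertIdx N L)) - (confLog (P := P)) H| ≤ s ^ 2 := by
  set w := gibbs H
  have hw : ∀ σ, 0 ≤ w σ := gibbs_nonneg H
  have hm : ∀ σ : Conf P, Measurable fun J : PertIdx N L → ℝ => pertH s x J σ := fun σ =>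
    (measurable_pertH (s := s) σ).comp measurable_prodMk_left
  have hlin : ∀ σ : Conf P, Integrable (fun J => pertH s x J σ) (gam (PertIdx N L)) := fun σ => by
    simp only [pertH_coef]
    exact integrable_finsetSum _ fun c _ =>
      (P168.Toolkit.integrable_eval_gaussPi c).mul_const _
  have hexp : ∀ σ : Conf P, Integrable (fun J => Real.exp (pertH s x J σ)) (gam (PertIdx N L)) ∧
      ∫ J, Real.exp (pertH s x J σ) ∂gam (PertIdx N L) ≤ Real.exp (s ^ 2) := by
    intro σ
    have e : ∀ J : PertIdx N L → ℝ, pertH s x J σ = ∑ c, pertCoef s x σ c * J c := fun J => by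
      rw [pertH_coef]; exact Finset.sum_congr rfl fun c _ => mul_comm _ _
    simp only [e]
    refine ⟨P168.Toolkit.integrable_exp_linear _, ?_⟩
    rw [P168.Toolkit.integral_exp_linear]
    exact Real.exp_le_exp.2 (by linarith [sum_pertCoef_sq (s := s) hN hx σ])
  set Z : (PertIdx N L → ℝ) → ℝ := fun J => ∑ σ, w σ * Real.exp (pertH s x J σ)
  have hZp : ∀ J, 0 < Z J := fun J => Finset.sum_pos
    (fun σ _ => mul_pos (div_pos (Real.exp_pos _) (sum_exp_pos H)) (Real.exp_pos _))
    Finset.univ_nonempty
  have hlo : ∀ J, ∑ σ, w σ * pertH s x J σ ≤ Real.log (Z J) := fun J => by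
    rw [Real.le_log_iff_exp_le (hZp J)]
    have := convexOn_exp.map_sum_le (t := Finset.univ) (w := w) (p := fun σ => pertH s x J σ)
      (fun σ _ => hw σ) (sum_gibbs H) fun σ _ => Set.mem_univ _
    simpa using this
  have hhi : ∀ J, Real.log (Z J) ≤ Z J * Real.exp (-s ^ 2) + s ^ 2 - 1 := fun J => by
    have := Real.log_le_sub_one_of_pos (mul_pos (hZp J) (Real.exp_pos (-s ^ 2)))
    rw [Real.log_mul (hZp J).ne' (Real.exp_pos _).ne', Real.log_exp] at this
    linarith
  have hZi : Integrable Z (gam (PertIdx N L)) :=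
    integrable_finsetSum _ fun σ _ => (hexp σ).1.const_mul _
  have hloi : Integrable (fun J => ∑ σ, w σ * pertH s x J σ) (gam (PertIdx N L)) :=
    integrable_finsetSum _ fun σ _ => (hlin σ).const_mul _
  have hlogm : Measurable fun J => Real.log (Z J) :=
    (Finset.measurable_sum _ fun σ _ => (hm σ).exp.const_mul _).log
  have hhii : Integrable (fun J => Z J * Real.exp (-s ^ 2) + s ^ 2 - 1) (gam (PertIdx N L)) :=
    ((hZi.mul_const _).add (integrable_const _)).sub (integrable_const _)
  have hli : Integrable (fun J => Real.log (Z J)) (gam (PertIdx N L)) :=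
    (hloi.abs.add hhii.abs).mono' hlogm.aestronglyMeasurable (Eventually.of_forall fun J => by
      simp only [Real.norm_eq_abs, Pi.add_apply, abs_le]
      constructor <;> linarith [neg_abs_le (∑ σ, w σ * pertH s x J σ),
        le_abs_self (Z J * Real.exp (-s ^ 2) + s ^ 2 - 1), hlo J, hhi J,
        abs_nonneg (∑ σ, w σ * pertH s x J σ), abs_nonneg (Z J * Real.exp (-s ^ 2) + s ^ 2 - 1)])
  have hci : Integrable (fun J => (confLog (P := P)) fun σ => H σ + pertH s x J σ) (gam (PertIdx N L)) :=
    (hli.add (integrable_const ((confLog (P := P)) H))).congr (Eventually.of_forall fun J => by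
      have := confLog_add H fun σ => pertH s x J σ
      simp only [Pi.add_apply, Z, w, gibbs]
      linarith)
  have hdiff : (∫ J, (confLog (P := P)) (fun σ => H σ + pertH s x J σ) ∂gam (PertIdx N L)) - (confLog (P := P)) H =
      ∫ J, Real.log (Z J) ∂gam (PertIdx N L) := by
    rw [← show ∫ _J : PertIdx N L → ℝ, (confLog (P := P)) H ∂gam (PertIdx N L) = (confLog (P := P)) H by simp,
      ← integral_sub hci (integrable_const _)]
    exact integral_congr_ae (Eventually.of_forall fun J => confLog_add H fun σ => pertH s x J σ)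
  have hzero : ∫ J, ∑ σ, w σ * pertH s x J σ ∂gam (PertIdx N L) = 0 := by
    rw [integral_finsetSum _ fun σ _ => (hlin σ).const_mul _]
    refine Finset.sum_eq_zero fun σ _ => ?_
    simp only [pertH_coef, integral_const_mul, mul_eq_zero]
    rw [integral_finsetSum _ fun c _ => (P168.Toolkit.integrable_eval_gaussPi c).mul_const _]
    refine Or.inr (Finset.sum_eq_zero fun c _ => ?_)
    rw [integral_mul_const, integral_eval, integral_id_gaussianReal, zero_mul]
  have hZ : ∫ J, Z J ∂gam (PertIdx N L) ≤ Real.exp (s ^ 2) := by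
    rw [integral_finsetSum _ fun σ _ => (hexp σ).1.const_mul _]
    calc _ ≤ ∑ σ, w σ * Real.exp (s ^ 2) := Finset.sum_le_sum fun σ _ => by
          rw [integral_const_mul]; exact mul_le_mul_of_nonneg_left (hexp σ).2 (hw σ)
      _ = _ := by rw [← Finset.sum_mul, sum_gibbs, one_mul]
  have h1 := integral_mono hloi hli hlo
  have h2 := integral_mono hli hhii hhi
  rw [integral_sub, integral_add, integral_mul_const] at h2
  · simp only [integral_const, probReal_univ, smul_eq_mul, one_mul] at h2
    have h3 := mul_le_mul_of_nonneg_right hZ (Real.exp_pos (-s ^ 2)).le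
    rw [← Real.exp_add, add_neg_cancel, Real.exp_zero] at h3
    rw [hdiff, abs_le]
    constructor <;> linarith [sq_nonneg s]
  · exact hZi.mul_const _
  · exact integrable_const _
  · exact (hZi.mul_const _).add (integrable_const _)
  · exact integrable_const _

/-- The mean log-average over the cube with `n` patterns. -/
def patLog (f : ℝ → ℝ) (P : Pts N) (n : ℕ) : ℝ :=
  ∫ g, (confLog (P := P)) (patH f n g) ∂(Measure.infinitePi fun _ : ℕ => gam (Fin N))

lemma measurable_confLog_patH (hf : Smooth f A) (n : ℕ) :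
    Measurable fun g : ℕ → Fin N → ℝ => (confLog (P := P)) (patH f n g) :=
  measurable_confLog.comp (measurable_pi_lambda _ fun σ =>
    (measurable_patH hf σ).comp measurable_prodMk_left)

lemma integrable_confLog_patH (hf : Smooth f A) (n : ℕ) :
    Integrable (fun g => (confLog (P := P)) (patH f n g)) (Measure.infinitePi fun _ : ℕ => gam (Fin N)) :=
  integrable_of_abs_le (K := n * A) (measurable_confLog_patH hf n) fun g =>
    abs_confLog_le fun σ => abs_patH_le hf n g σ

lemma patLog_succ (hf : Smooth f A) (P : Pts N) (n : ℕ) : |patLog f P (n + 1) - patLog f P n| ≤ A := by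
  rw [patLog, patLog, ← integral_sub (integrable_confLog_patH hf _) (integrable_confLog_patH hf _)]
  suffices h : ∀ g : ℕ → Fin N → ℝ, ‖(confLog (P := P)) (patH f (n + 1) g) - (confLog (P := P)) (patH f n g)‖ ≤ A by
    refine (norm_integral_le_of_norm_le_const
      (μ := Measure.infinitePi fun _ : ℕ => gam (Fin N)) (Eventually.of_forall h)).trans_eq ?_
    rw [probReal_univ, mul_one]
  intro g
  have e : patH (P := P) f (n + 1) g = fun σ => patH f n g σ + f (dot (g n) (unitVec σ)) :=
    funext fun σ => Finset.sum_range_succ _ _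
  rw [e, Real.norm_eq_abs, confLog_add]
  have hw : ∀ σ : Conf P, 0 ≤ gibbs (patH (P := P) f n g) σ := gibbs_nonneg _
  have hp : 0 < ∑ σ, gibbs (patH (P := P) f n g) σ * Real.exp (f (dot (g n) (unitVec σ))) :=
    Finset.sum_pos (fun σ _ => mul_pos (div_pos (Real.exp_pos _) (sum_exp_pos _)) (Real.exp_pos _))
      Finset.univ_nonempty
  show |Real.log (∑ σ, gibbs (patH (P := P) f n g) σ * _)| ≤ A
  rw [abs_le, Real.le_log_iff_exp_le hp, Real.log_le_iff_le_exp hp]
  constructor
  · calc Real.exp (-A) = ∑ σ, gibbs (patH (P := P) f n g) σ * Real.exp (-A) := by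
          rw [← Finset.sum_mul, sum_gibbs, one_mul]
      _ ≤ _ := Finset.sum_le_sum fun σ _ => mul_le_mul_of_nonneg_left
          (Real.exp_le_exp.2 (abs_le.1 (hf.b0 _)).1) (hw σ)
  · calc _ ≤ ∑ σ, gibbs (patH (P := P) f n g) σ * Real.exp A := Finset.sum_le_sum fun σ _ =>
          mul_le_mul_of_nonneg_left (Real.exp_le_exp.2 (abs_le.1 (hf.b0 _)).2) (hw σ)
      _ = _ := by rw [← Finset.sum_mul, sum_gibbs, one_mul]

lemma isProb_sphereLaw (hN : 0 < N) : IsProbabilityMeasure (sphereLaw N) := by
  rw [sphereLaw_eq hN]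
  exact Measure.isProbabilityMeasure_map
    ((measurable_pi_lambda _ fun i => ((measurable_pi_apply i).comp measurable_dir).const_mul _).aemeasurable)

lemma integral_abs_le_one {ι : Type*} [Fintype ι] (i : ι) :
    Integrable (fun g : ι → ℝ => |g i|) (gam ι) ∧ ∫ g : ι → ℝ, |g i| ∂gam ι ≤ 1 := by
  have h1 : Integrable (fun x : ℝ => |x|) (gaussianReal 0 1) :=
    (IsGaussian.memLp_two_id.integrable one_le_two).abs
  have h2 : Integrable (fun x : ℝ => x ^ 2) (gaussianReal 0 1) := IsGaussian.memLp_two_id.integrable_sq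
  refine ⟨(P168.Toolkit.integrable_eval_gaussPi i).abs, ?_⟩
  rw [show ∫ g : ι → ℝ, |g i| ∂gam ι = ∫ x, |x| ∂(gaussianReal 0 1) from
    integral_comp_eval (μ := fun _ : ι => gaussianReal 0 1) h1.aestronglyMeasurable]
  calc ∫ x, |x| ∂(gaussianReal 0 1) ≤ ∫ x, (1 + x ^ 2) / 2 ∂(gaussianReal 0 1) :=
        integral_mono h1 (((integrable_const _).add h2).div_const 2) fun x => by
          show |x| ≤ (1 + x ^ 2) / 2
          nlinarith [sq_nonneg (|x| - 1), sq_abs x]
    _ = 1 := by
        have e : ∫ x : ℝ, x ^ 2 ∂(gaussianReal 0 1) = 1 := by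
          have h := variance_eq_sub (μ := (gaussianReal 0 1)) (X := id) IsGaussian.memLp_two_id
          rw [variance_id_gaussianReal] at h
          simpa using h.symm
        rw [integral_div, integral_add (integrable_const _) h2, e]
        simp

lemma lip_pot (hf : Smooth f A) (u v : ℝ) : |f u - f v| ≤ A * |u - v| := by
  have h := Convex.norm_image_sub_le_of_norm_deriv_le (f := f) (s := Set.univ)
    (fun x _ => hf.d0 x) (fun x _ => (Real.norm_eq_abs _).trans_le (hf.b1 x)) convex_univ
    (Set.mem_univ v) (Set.mem_univ u)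
  simpa only [Real.norm_eq_abs] using h

/-- The pressure on the sphere against the log-average over a discretisation. -/
lemma pressure_close (hf : Smooth f A) (hN : 0 < N) (M : ℕ) (hM : ⌊α * N⌋₊ = M)
    (hP : ∃ π : (Fin N → ℝ) → Fin N → ℝ, Measurable π ∧
      (∀ᵐ x ∂sphereLaw N,
        Real.sqrt (∑ i, (π x i - x i / Real.sqrt N) ^ 2) ≤ netTol N ∧ ∃ σ, π x = P.u σ) ∧
      ∀ φ : (Fin N → ℝ) → ℝ, Measurable φ → (∀ v, 0 ≤ φ v) →
        (1 - netTol N) * ∫ x, φ (π x) ∂sphereLaw N ≤ (∑ σ, φ (P.u σ)) / P.K ∧
          (∑ σ, φ (P.u σ)) / P.K ≤ (1 + netTol N) * ∫ x, φ (π x) ∂sphereLaw N) :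
    |(N : ℝ) * meanPressure sphereLaw α f N - patLog f P M| ≤
      2 * netTol N + A * netTol N * N * M := by
  obtain ⟨π, hπm, hπ, hav⟩ := hP
  have := isProb_sphereLaw hN
  have hA := smooth_nonneg hf
  have ht0 : 0 ≤ netTol N := by unfold netTol; positivity
  have ht1 : netTol N ≤ 1 / 2 := by
    have h2 : (2 : ℝ) ≤ ((N : ℝ) + 1) ^ 3 := by
      have h1 : (1 : ℝ) ≤ N := by exact_mod_cast hN
      nlinarith [pow_le_pow_left₀ (by norm_num : (0:ℝ) ≤ 2) (show (2:ℝ) ≤ N + 1 by linarith) 3]
    unfold netTol
    rw [div_le_div_iff₀ (by positivity) two_pos]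
    linarith
  have hfm := smooth_meas hf
  set t := netTol N
  set D : (Fin M → Fin N → ℝ) → ℝ := fun g => A * t * ∑ a, ∑ i, |g a i|
  set H : (Fin M → Fin N → ℝ) → (Fin N → ℝ) → ℝ := fun g v => ∑ a, f (dot (g a) v)
  set Z : (Fin M → Fin N → ℝ) → ℝ := fun g =>
    Real.log (∫ x, Real.exp (H g fun i => x i / Real.sqrt N) ∂sphereLaw N)
  set C : (Fin M → Fin N → ℝ) → ℝ := fun g =>
    confLog (P := P) fun σ => H g (unitVec σ)
  have hH : ∀ g v, |H g v| ≤ M * A := fun g v => (Finset.abs_sum_le_sum_abs _ _).trans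
    ((Finset.sum_le_sum fun a _ => hf.b0 _).trans_eq (by simp))
  have hHm : Measurable fun p : (Fin M → Fin N → ℝ) × (Fin N → ℝ) => H p.1 p.2 := by
    simp only [H]; unfold dot; fun_prop
  have : IsProbabilityMeasure (patterns M N) := by unfold patterns; infer_instance
  have hpt : ∀ g, |Z g - C g| ≤ 2 * t + D g := by
    intro g
    have hx : ∀ᵐ x ∂sphereLaw N, |H g (π x) - H g (fun i => x i / Real.sqrt N)| ≤ D g := by
      refine hπ.mono fun x hx => ?_
      simp only [H, D, ← Finset.sum_sub_distrib]
      rw [Finset.mul_sum]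
      refine (Finset.abs_sum_le_sum_abs _ _).trans (Finset.sum_le_sum fun a _ => ?_)
      refine (lip_pot hf _ _).trans ?_
      rw [mul_assoc]
      refine mul_le_mul_of_nonneg_left ?_ hA
      simp only [dot, ← Finset.sum_sub_distrib, ← mul_sub, Finset.mul_sum]
      refine (Finset.abs_sum_le_sum_abs _ _).trans (Finset.sum_le_sum fun i _ => ?_)
      rw [abs_mul, mul_comm t]
      refine mul_le_mul_of_nonneg_left (le_trans ?_ hx.1) (abs_nonneg _)
      refine Real.abs_le_sqrt ?_
      exact Finset.single_le_sum (f := fun j => (π x j - x j / Real.sqrt N) ^ 2)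
        (fun j _ => sq_nonneg _) (Finset.mem_univ i)
    set I := ∫ x, Real.exp (H g fun i => x i / Real.sqrt N) ∂sphereLaw N
    set J := ∫ x, Real.exp (H g (π x)) ∂sphereLaw N
    have hI : Integrable (fun x => Real.exp (H g fun i => x i / Real.sqrt N)) (sphereLaw N) :=
      integrable_exp_of_abs_le (hHm.comp (measurable_const.prodMk (by fun_prop))) fun x => hH g _
    have hJ : Integrable (fun x => Real.exp (H g (π x))) (sphereLaw N) :=
      integrable_exp_of_abs_le (hHm.comp (measurable_const.prodMk hπm)) fun x => hH g _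
    have hI0 : 0 < I := integral_exp_pos hI
    have hJ0 : 0 < J := integral_exp_pos hJ
    have hIJ : I ≤ Real.exp (D g) * J := by
      rw [← integral_const_mul]
      refine integral_mono_ae hI (hJ.const_mul _) (hx.mono fun x h => ?_)
      show Real.exp _ ≤ _ * _
      rw [← Real.exp_add]
      exact Real.exp_le_exp.2 (by linarith [(abs_le.1 h).1])
    have hJI : J ≤ Real.exp (D g) * I := by
      rw [← integral_const_mul]
      refine integral_mono_ae hJ (hI.const_mul _) (hx.mono fun x h => ?_)
      show Real.exp _ ≤ _ * _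
      rw [← Real.exp_add]
      exact Real.exp_le_exp.2 (by linarith [(abs_le.1 h).2])
    obtain ⟨h1, h2⟩ := hav (fun v => Real.exp (H g v))
      (hHm.comp (measurable_const.prodMk measurable_id)).exp fun v => (Real.exp_pos _).le
    set S := (∑ σ, Real.exp (H g (P.u σ))) / (P.K : ℝ)
    have hS : C g = Real.log S := rfl
    have hS0 : 0 < S := lt_of_lt_of_le (mul_pos (by linarith) hJ0) h1
    have l1 := Real.log_le_log hI0 hIJ
    have l2 := Real.log_le_log hJ0 hJI
    rw [Real.log_mul (Real.exp_pos _).ne' hJ0.ne', Real.log_exp] at l1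
    rw [Real.log_mul (Real.exp_pos _).ne' hI0.ne', Real.log_exp] at l2
    have l3 := Real.log_le_log (mul_pos (by linarith) hJ0) h1
    have l4 := Real.log_le_log hS0 h2
    rw [Real.log_mul (by linarith) hJ0.ne'] at l3 l4
    have l5 : Real.log (1 + t) ≤ t := by
      linarith [Real.log_le_sub_one_of_pos (show 0 < 1 + t by linarith)]
    have l6 : -(2 * t) ≤ Real.log (1 - t) := by
      have := Real.one_sub_inv_le_log_of_pos (show 0 < 1 - t by linarith)
      refine le_trans ?_ this
      have : (1 - t)⁻¹ ≤ 1 + 2 * t := by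
        rw [inv_le_iff_one_le_mul₀ (by linarith)]
        nlinarith
      linarith
    rw [abs_le, hS]
    constructor <;> linarith
  have hZm : Measurable Z := Real.measurable_log.comp
    (((hHm.comp (f := fun p : (Fin M → Fin N → ℝ) × (Fin N → ℝ) => (p.1, fun i => p.2 i / Real.sqrt N))
      (by fun_prop)).exp).stronglyMeasurable.integral_prod_right').measurable
  have hCm : Measurable C := (measurable_confLog (P := P)).comp (measurable_pi_lambda _ fun σ =>
    hHm.comp (measurable_id.prodMk measurable_const))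
  have hCb : ∀ g, |C g| ≤ M * A := fun g => abs_confLog_le fun σ => hH g _
  have hCi : Integrable C (patterns M N) := by
    unfold patterns; exact integrable_of_abs_le hCm hCb
  have hDi : Integrable D (patterns M N) ∧ ∫ g, D g ∂patterns M N ≤ A * t * (N * M) := by
    have h : ∀ a : Fin M, ∀ i : Fin N, Integrable (fun g : Fin M → Fin N → ℝ => |g a i|) (patterns M N) ∧
        ∫ g, |g a i| ∂patterns M N ≤ 1 := fun a i => by
      obtain ⟨j1, j2⟩ := integral_abs_le_one i
      refine ⟨(measurePreserving_eval (fun _ : Fin M => gam (Fin N)) a).integrable_comp_of_integrable j1, ?_⟩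
      rw [show ∫ g, |g a i| ∂patterns M N = ∫ g : Fin N → ℝ, |g i| ∂gam (Fin N) from
        integral_comp_eval (μ := fun _ : Fin M => gam (Fin N)) (i := a) j1.aestronglyMeasurable]
      exact j2
    refine ⟨(integrable_finsetSum _ fun a _ => integrable_finsetSum _ fun i _ => (h a i).1).const_mul _, ?_⟩
    rw [integral_const_mul, integral_finsetSum _ fun a _ => integrable_finsetSum _ fun i _ => (h a i).1]
    refine mul_le_mul_of_nonneg_left ((Finset.sum_le_sum (g := fun _ => (N : ℝ)) fun a _ => ?_).trans_eq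
      (by simp [mul_comm])) (by positivity)
    rw [integral_finsetSum _ fun i _ => (h a i).1]
    exact (Finset.sum_le_sum fun i _ => (h a i).2).trans_eq (by simp)
  have hp : MeasurePreserving (fun g : ℕ → Fin N → ℝ => fun i : Fin M => g i)
      (Measure.infinitePi fun _ => gam (Fin N)) (patterns M N) :=
    measurePreserving_fst.comp (mp_cut M 0)
  have e1 : patLog f P M = ∫ g, C g ∂patterns M N := by
    rw [patLog, ← hp.map_eq, integral_map hp.measurable.aemeasurable hCm.aestronglyMeasurable]
    refine integral_congr_ae (Eventually.of_forall fun g => ?_)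
    simp only [C, H]
    congr 1
    funext σ
    exact (Fin.sum_univ_eq_sum_range (fun a => f (dot (g a) (unitVec σ))) M).symm
  have e2 : (N : ℝ) * meanPressure sphereLaw α f N = ∫ g, Z g ∂patterns M N := by
    rw [meanPressure, hM, integral_const_mul, ← mul_assoc, mul_one_div,
      div_self (Nat.cast_ne_zero.2 hN.ne'), one_mul]
    congr 1
    funext g
    simp only [Z, H, dot]
    congr 2
    funext x
    congr 1
    exact Finset.sum_congr rfl fun a _ => congrArg f (by
      rw [Finset.sum_div]; exact Finset.sum_congr rfl fun i _ => mul_div_assoc _ _ _)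
  have hZi : Integrable Z (patterns M N) := by
    refine (hCi.abs.add (((integrable_const (2 * t)).add hDi.1))).mono' hZm.aestronglyMeasurable
      (Eventually.of_forall fun g => ?_)
    have := abs_sub_abs_le_abs_sub (Z g) (C g)
    simp only [Real.norm_eq_abs, Pi.add_apply]
    linarith [hpt g]
  rw [e1, e2, ← integral_sub hZi hCi]
  refine abs_integral_le_integral_abs.trans ((integral_mono (hZi.sub hCi).abs
    ((integrable_const _).add hDi.1) hpt).trans ?_)
  simp only [Pi.add_apply]
  rw [integral_add (integrable_const _) hDi.1]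
  simp only [integral_const, smul_eq_mul]
  have : (patterns M N).real Set.univ = 1 := by unfold patterns; exact probReal_univ
  rw [this, one_mul]
  linarith [hDi.2]

/-- The perturbed log-partition is close to `N` times the pressure. -/
lemma logPartS_close (hf : Smooth f A) (hα : 0 ≤ α) (hN : 0 < N) {x : Fin N → ℝ}
    (hx : ∀ i, x i ∈ Set.Icc (1 : ℝ) 2) :
    |logPartS P f s x (α * N) - patLog f P ⌊α * N⌋₊| ≤
      s ^ 2 + A * (Real.sqrt (α * N) + 1) := by
  have hA := smooth_nonneg hf
  have hμ : 0 ≤ α * N := mul_nonneg hα (Nat.cast_nonneg N)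
  set μ := α * (N : ℝ)
  set r := μ.toNNReal
  have hr : (r : ℝ) = μ := Real.coe_toNNReal μ hμ
  have hT := tame_confLog (P := P) (s := s) hf hx
  rw [logPartS_disMean,
    disMean_eq hT hf]
  have hcm : ∀ n, |countMean (N := N) f s x (confLog (P := P)) n - patLog f P n| ≤ s ^ 2 := by
    intro n
    have hgJ := hT.integrable_gJ hf n
    rw [countMean, ← integral_integral_swap hgJ, patLog,
      ← integral_sub hgJ.integral_prod_left (integrable_confLog_patH hf n)]
    simpa using norm_integral_le_of_norm_le_const (μ := Measure.infinitePi fun _ : ℕ => gam (Fin N))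
      (Eventually.of_forall fun g => show ‖(∫ J, (confLog (P := P)) (fun σ => patH f n g σ + pertH s x J σ)
        ∂gam (PertIdx N N)) - (confLog (P := P)) (patH f n g)‖ ≤ s ^ 2 from pert_gap hN hx (patH f n g))
  have hlip : ∀ n m : ℕ, |patLog f P n - patLog f P m| ≤ A * |(n : ℝ) - m| := by
    intro n m
    rcases le_total m n with h | h
    · obtain ⟨l, rfl⟩ := Nat.exists_eq_add_of_le h
      refine (P168.Toolkit.abs_le_linear (fun k => patLog_succ hf P k) m l).trans_eq ?_
      push_cast; simp
    · obtain ⟨l, rfl⟩ := Nat.exists_eq_add_of_le h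
      rw [abs_sub_comm, abs_sub_comm (n : ℝ)]
      refine (P168.Toolkit.abs_le_linear (fun k => patLog_succ hf P k) n l).trans_eq ?_
      push_cast; simp
  set M := ⌊μ⌋₊
  have hcount : Integrable (fun n : ℕ => |(n : ℝ) - M|) (poissonMeasure r) :=
    ((integrable_count r).sub (integrable_const _)).abs
  have hintc : Integrable (countMean (N := N) f s x (confLog (P := P))) (poissonMeasure r) :=
    integrable_poisson_of_linear r (A := ∫ J, (A + pertBound s N J) ∂gam (PertIdx N N))
      (B := ∫ J, (A + pertBound s N J) ∂gam (PertIdx N N)) fun n =>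
      (abs_countMean_le hT n).trans_eq (by ring)
  have hdev : ∫ n, |(n : ℝ) - M| ∂poissonMeasure r ≤ Real.sqrt μ + 1 := by
    have h1 : ∫ n, |(n : ℝ) - r| ∂poissonMeasure r ≤ Real.sqrt μ := by
      have hv : variance (fun n : ℕ => |(n : ℝ) - r|) (poissonMeasure r) ≥ 0 := variance_nonneg _ _
      have hmem : MemLp (fun n : ℕ => |(n : ℝ) - r|) 2 (poissonMeasure r) :=
        ((P168.Toolkit.memLp_count r).sub (memLp_const _)).norm
      rw [variance_eq_sub hmem] at hv
      have h2 : ∫ n, ((n : ℝ) - r) ^ 2 ∂poissonMeasure r = r := by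
        have := P168.Toolkit.variance_count r
        rw [variance_eq_integral (P168.Toolkit.memLp_count r).aemeasurable,
          P168.Toolkit.integral_count] at this
        exact this
      simp only [Pi.pow_apply, sq_abs] at hv
      rw [h2] at hv
      exact Real.le_sqrt_of_sq_le (by linarith [hr])
    have h3 : |(r : ℝ) - M| ≤ 1 := by
      rw [hr, abs_le]
      constructor <;> linarith [Nat.floor_le hμ, Nat.lt_floor_add_one μ]
    calc ∫ n, |(n : ℝ) - M| ∂poissonMeasure r
        ≤ ∫ n, (|(n : ℝ) - r| + 1) ∂poissonMeasure r := by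
          refine integral_mono hcount (((integrable_count r).sub (integrable_const _)).abs.add
            (integrable_const _)) fun n => ?_
          have := abs_sub_le (n : ℝ) r M
          show |(n : ℝ) - M| ≤ |(n : ℝ) - r| + 1
          linarith
      _ ≤ _ := by
          have hi : Integrable (fun n : ℕ => |(n : ℝ) - r|) (poissonMeasure r) :=
            ((integrable_count r).sub (integrable_const _)).abs
          rw [integral_add hi (integrable_const _)]
          simpa using h1
  rw [← show ∫ _n : ℕ, patLog f P M ∂poissonMeasure r = patLog f P M by simp,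
    ← integral_sub hintc (integrable_const _)]
  refine (abs_integral_le_integral_abs).trans ?_
  calc ∫ n, |countMean f s x (confLog (P := P)) n - patLog f P M| ∂poissonMeasure r
      ≤ ∫ n, (s ^ 2 + A * |(n : ℝ) - M|) ∂poissonMeasure r := by
        refine integral_mono (hintc.sub (integrable_const _)).abs
          ((integrable_const _).add (hcount.const_mul A)) fun n => ?_
        exact (abs_sub_le _ (patLog f P n) _).trans (add_le_add (hcm n) (hlip n M))
    _ ≤ _ := by
        rw [integral_add (integrable_const _) (hcount.const_mul A), integral_const_mul]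
        simp only [integral_const, probReal_univ, smul_eq_mul, one_mul]
        have := mul_le_mul_of_nonneg_left hdev hA
        linarith

end Vale.Agent.P157.Parisi.Sphere.Main
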