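import Vale.Agent.P157.Parisi.Sphere.Main.Lower
import Vale.Agent.P157.Parisi.Main.Lower

/-! The formula on the sphere from the two bounds; the values are bounded below. -/

noncomputable section

open MeasureTheory ProbabilityTheory Filter
open scoped BigOperators NNReal ENNReal Topology

namespace Vale.Agent.P157.Parisi.Sphere.Main

open Vale.Agent.P157.Parisi.Main (abs_patValue_le weight_nonneg)

lemma sum_weight_mul {r : ℕ} (m : Fin r → ℝ) (c : Fin (r + 1) → ℝ) :
    ∑ p, weight m p * c p = c (Fin.last r) - ∑ i, m i * (c i.succ - c i.castSucc) := by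
  simp only [weight, sub_mul, Finset.sum_sub_distrib, mul_sub]
  rw [Fin.sum_univ_castSucc fun p => (Fin.snoc m 1 : Fin (r + 1) → ℝ) p * c p,
    Fin.sum_univ_succ fun p => (Fin.cons 0 m : Fin (r + 1) → ℝ) p * c p]
  simp only [Fin.snoc_castSucc, Fin.snoc_last, Fin.cons_zero, Fin.cons_succ]
  ring

theorem bddBelow_parisiSphereValues (hS : SlopeStmt) {α A : ℝ} {f : ℝ → ℝ} (hα : 0 < α)
    (hf : Smooth f A) : BddBelow (parisiSphereValues α f) := by
  refine ⟨-(α * A) - α * A ^ 2 / 2, ?_⟩
  rintro v ⟨r, m, q, hq, rfl⟩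
  set ξ : Path := ⟨r, m, q, hq⟩
  obtain ⟨hmono, hs⟩ := hS f A hf ξ
  set c := slope f m q
  have hc0 : ∀ p, 0 ≤ c p := fun p => (hs p).1
  have hcA : ∀ p, c p ≤ A ^ 2 := fun p => (hs p).2.2.1.trans (hs p).2.2.2
  have hΔ : ∀ i : Fin r, 0 ≤ m i * (c i.succ - c i.castSucc) := fun i =>
    mul_nonneg (hq.pos i).le (sub_nonneg.2 (hmono (Fin.castSucc_lt_succ (i := i)).le))
  have hq1 : ∀ p, q p ≤ 1 := fun p => (hq.mono (Fin.le_last p)).trans hq.le_one
  have hq0 : ∀ p, 0 ≤ q p := fun p => hq.nonneg.trans (hq.mono (Fin.zero_le p))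
  have h1 : ∑ k, weight m k * q k * c k ≤ ∑ k, weight m k * c k := Finset.sum_le_sum fun k _ =>
    mul_le_mul_of_nonneg_right (mul_le_of_le_one_right (weight_nonneg hq k) (hq1 k)) (hc0 k)
  have h0 : 0 ≤ ∑ k, weight m k * q k * c k := Finset.sum_nonneg fun k _ =>
    mul_nonneg (mul_nonneg (weight_nonneg hq k) (hq0 k)) (hc0 k)
  rw [sum_weight_mul m c] at h1
  set T : Fin (r + 1) → ℝ := fun p =>
    ∑ i : Fin r, if p.val ≤ i.val then m i * (c i.succ - c i.castSucc) else 0
  have hD : ∀ p, precision α f m q p =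
      1 + α * (c (Fin.last r) - ∑ k, weight m k * q k * c k) - α * T p := fun p => rfl
  have hT : ∀ p, T p ≤ ∑ i : Fin r, m i * (c i.succ - c i.castSucc) := fun p =>
    Finset.sum_le_sum fun i _ => by split_ifs <;> linarith [hΔ i]
  have hD1 : ∀ p, 1 ≤ precision α f m q p := fun p => by
    have := mul_nonneg hα.le (show 0 ≤ c (Fin.last r) - (∑ k, weight m k * q k * c k) - T p by
      linarith [hT p])
    rw [hD]; linarith
  have hTmono : ∀ i : Fin r, T i.succ ≤ T i.castSucc := fun i => by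
    refine Finset.sum_le_sum fun k _ => ?_
    simp only [Fin.val_succ, Fin.val_castSucc]
    split_ifs with h h' <;> first | linarith [hΔ k] | omega
  have hsum : 0 ≤ ∑ i : Fin r,
      Real.log (precision α f m q i.succ / precision α f m q i.castSucc) / (2 * m i) := by
    refine Finset.sum_nonneg fun i _ => div_nonneg (Real.log_nonneg ?_) (by linarith [hq.pos i])
    rw [one_le_div (by linarith [hD1 i.castSucc]), hD, hD]
    have := mul_le_mul_of_nonneg_left (hTmono i) hα.le
    linarith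
  have hTr : T (Fin.last r) = 0 := Finset.sum_eq_zero fun i _ =>
    if_neg (by simp [i.isLt])
  have hlog : Real.log (precision α f m q (Fin.last r)) ≤ α * A ^ 2 := by
    refine (Real.log_le_sub_one_of_pos (by linarith [hD1 (Fin.last r)])).trans ?_
    rw [hD, hTr]
    have := mul_le_mul_of_nonneg_left (hcA (Fin.last r)) hα.le
    have := mul_nonneg hα.le h0
    linarith
  have hfirst : 0 ≤ α * c 0 / (2 * precision α f m q 0) :=
    div_nonneg (mul_nonneg hα.le (hc0 0)) (by linarith [hD1 0])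
  have hpat : -A ≤ patValue f m q := (abs_le.1 (abs_patValue_le hf ξ)).1
  have := mul_le_mul_of_nonneg_left hpat hα.le
  unfold parisiSphere siteSphere
  simp only [c] at hfirst hlog
  linarith

lemma parisiSphereValues_nonempty (α : ℝ) (f : ℝ → ℝ) : (parisiSphereValues α f).Nonempty :=
  ⟨_, 0, Fin.elim0, fun _ => 0, ⟨fun i => i.elim0, fun i => i.elim0, fun i => i.elim0,
    monotone_const, le_rfl, zero_le_one⟩, rfl⟩

/-- The lower bound, in terms of the infimum. -/
theorem lower_sInf (hLow : LowerS) {α A : ℝ} {f : ℝ → ℝ} (hα : 0 < α) (hf : Smooth f A)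
    (hb : BddBelow (parisiSphereValues α f)) {ε : ℝ} (hε : 0 < ε) :
    ∀ᶠ N : ℕ in atTop, sInf (parisiSphereValues α f) - ε ≤ meanPressure sphereLaw α f N := by
  filter_upwards [hLow α A f hα hf ε hε] with N hN
  obtain ⟨v, hv, h⟩ := hN
  linarith [csInf_le hb hv]

/-- The formula. -/
theorem formula_of (hLow : LowerS) (hUp : UpperS) {α A : ℝ} {f : ℝ → ℝ} (hα : 0 < α)
    (hf : Smooth f A) (hb : BddBelow (parisiSphereValues α f)) (hc : BlockConcave f) :
    Tendsto (meanPressure sphereLaw α f) atTop (𝓝 (sInf (parisiSphereValues α f))) := by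
  rw [Metric.tendsto_nhds]
  intro ε hε
  obtain ⟨v, ⟨r, m, q, hq, rfl⟩, hv⟩ :=
    exists_lt_of_csInf_lt (parisiSphereValues_nonempty α f)
      (show sInf (parisiSphereValues α f) < sInf (parisiSphereValues α f) + ε / 4 by linarith)
  filter_upwards [lower_sInf hLow hα hf hb (show 0 < ε / 4 by linarith),
    hUp α A f hα hf hc ⟨r, m, q, hq⟩ (ε / 4) (by linarith)] with N h1 h2
  rw [Real.dist_eq, abs_lt]
  constructor <;> linarith

end Vale.Agent.P157.Parisi.Sphere.Main
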