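import Vale.Agent.P157.Parisi.Sphere.Main.Shift

/-! The effect of the new patterns in asymptotic cascades. -/

noncomputable section

open MeasureTheory ProbabilityTheory Filter
open scoped BigOperators NNReal ENNReal Topology

namespace Vale.Agent.P157.Parisi.Sphere.Main

open Vale.Agent.P157.Parisi.Main (smooth_nonneg smooth_meas ae_xLaw mp_cut abs_patValue_le treeExp_const unitObs unitObs_good unitObs_val)

open Vale.Agent.P168.Toolkit (integrable_count integral_count integrable_poisson_of_linear)

variable {f : ℝ → ℝ} {A α : ℝ}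

/-- The cube `[-1,1]^{n × n}`. -/
def box (n : ℕ) : Set (Fin n → Fin n → ℝ) :=
  Set.pi Set.univ fun _ => Set.pi Set.univ fun _ => Set.Icc (-1) 1

lemma exists_box_bound {n : ℕ} {F : (Fin n → Fin n → ℝ) → ℝ} (hF : Continuous F) :
    ∃ C, 0 ≤ C ∧ ∀ T ∈ box n, |F T| ≤ C := by
  have hc : IsCompact (box n) :=
    isCompact_univ_pi fun _ => isCompact_univ_pi fun _ => isCompact_Icc
  obtain ⟨C, hC⟩ := hc.exists_bound_of_continuousOn hF.continuousOn
  exact ⟨max C 0, le_max_right _ _, fun T hT => (hC T hT).trans (le_max_left _ _)⟩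

lemma overlaps_mem_box {N n : ℕ} {P : Pts N} (σ : Fin n → Conf P) : overlaps σ ∈ box n := by
  simp only [box, Set.mem_pi, Set.mem_univ, forall_const, Set.mem_Icc, ← abs_le]
  exact fun a b => abs_overlap_le _ _

variable {Ns : ℕ → ℕ} {Ps : ∀ j, Pts (Ns j)} {s : ℕ → ℝ} {x : ∀ j, Fin (Ns j) → ℝ} {μ : ℕ → ℝ} {ξ : ℕ → Path}

lemma approx_shift (hC : ContS) (hf : Smooth f A) (hN : ∀ j, 0 < Ns j) (hμ : ∀ j, 0 ≤ μ j)
    (hα : 0 ≤ α) (h : Approx Ns Ps (fun j => sysState (Ps j) f (s j) (x j) (μ j)) ξ) :
    Approx Ns Ps (fun j => sysState (Ps j) f (s j) (x j) (μ j + α)) ξ := by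
  intro n F hF
  obtain ⟨C, hC0, hCb⟩ := exists_box_bound hF
  rcases Nat.eq_zero_or_pos n with rfl | hn
  · refine tendsto_const_nhds.congr' (Eventually.of_forall fun j => (sub_eq_zero.2 ?_).symm)
    have e1 : (fun T : Fin 0 → Fin 0 → ℝ => F T) = fun _ => F fun a => a.elim0 :=
      funext fun T => congrArg F (funext fun a => a.elim0)
    have hS := sysState_good (P := Ps j) (s := s j) (μ := μ j + α) hf (x j)
    have := hS.prob
    have : Unique (Fin 0 → Conf (Ps j)) := Pi.uniqueOfIsEmpty _
    rw [show F = fun _ => F fun a => a.elim0 from e1, treeExp_const]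
    simp [State.repMean]
  set D : ℕ → ℕ → ℝ := fun j k =>
    (sysState (Ps j) f (s j) (x j) (μ j)).patMean f F (fun _ : Fin k => unitObs hn) -
      (ξ j).treeExp n F
  have hk : ∀ k, Tendsto (fun j => D j k) atTop (𝓝 0) := fun k => by
    refine (hC A f hf Ns Ps _ ξ hN (fun j => sysState_good hf (x j)) h k n F
      (fun _ => unitObs hn) hF fun _ => unitObs_good hn).congr' (Eventually.of_forall fun j => ?_)
    simp [D, Path.treePat, Path.treeExp, unitObs_val hf _ hn]
  have hpat : ∀ j k, |(sysState (Ps j) f (s j) (x j) (μ j)).patMean f F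
      (fun _ : Fin k => unitObs hn)| ≤ C := by
    intro j k
    have e : ∀ d : Dis (Ns j) (Ns j), ∀ g : Fin k → Fin (Ns j) → ℝ,
        |repAvg n (fun σ : Fin n → Conf (Ps j) => F (overlaps σ))
          (fun σ => totalH f (s j) (x j) d σ + ∑ i, f (dot (g i) (unitVec σ)))| ≤ C := fun d g =>
      abs_repAvg_le (fun σ => hCb _ (overlaps_mem_box σ)) _
    have := (sysState_good (P := Ps j) (s := s j) (μ := μ j) hf (x j)).prob
    rw [State.patMean, ← Real.norm_eq_abs]
    refine (norm_integral_le_of_norm_le_const (C := C) (Eventually.of_forall fun d => ?_)).trans_eq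
      (by rw [show (sysState (Ps j) f (s j) (x j) (μ j)).law.real Set.univ = 1 from probReal_univ, mul_one])
    refine (norm_integral_le_of_norm_le_const (C := C) (Eventually.of_forall fun g => ?_)).trans_eq
      (by simp)
    have e' := e d g
    rw [repAvg, repAvg_add] at e'
    simpa only [unitObs, Obs.eval, mul_one, Finset.prod_const_one, gibbs, sysState,
      Real.norm_eq_abs] using e'
  obtain ⟨j₀, hj₀⟩ := eventually_atTop.1 ((Metric.tendsto_nhds.1 (h n F hF)) 1 one_pos)
  have hb : ∀ᶠ j in atTop, ∀ k, ‖D j k‖ ≤ 2 * C + 1 := by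
    refine eventually_atTop.2 ⟨j₀, fun j hj k => ?_⟩
    have h1 := hj₀ j hj
    rw [Real.dist_eq, sub_zero] at h1
    have h2 : |(sysState (Ps j) f (s j) (x j) (μ j)).repMean n (fun σ => F (overlaps σ))| ≤ C := by
      rw [repMean_sys]
      simpa [disMean] using norm_integral_le_of_norm_le_const (μ := disLaw (Ns j) (Ns j) (μ j))
        (Eventually.of_forall fun d => show ‖repAvg n (fun σ => F (overlaps σ))
          (totalH (P := Ps j) f (s j) (x j) d)‖ ≤ C from abs_repAvg_le (fun σ => hCb _ (overlaps_mem_box σ)) _)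
    rw [Real.norm_eq_abs]
    refine (abs_sub _ _).trans ?_
    have := hpat j k
    have := abs_sub_abs_le_abs_sub ((ξ j).treeExp n F)
      ((sysState (Ps j) f (s j) (x j) (μ j)).repMean n fun σ => F (overlaps σ))
    rw [abs_sub_comm] at this
    linarith
  have hlim := tendsto_integral_filter_of_dominated_convergence (μ := poissonMeasure α.toNNReal)
    (F := fun j k => D j k) (f := fun _ => 0) (fun _ => 2 * C + 1)
    (Eventually.of_forall fun j => Measurable.of_discrete.aestronglyMeasurable)
    (hb.mono fun j hj => Eventually.of_forall hj) (integrable_const _) (Eventually.of_forall hk)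
  rw [integral_zero] at hlim
  refine hlim.congr' (Eventually.of_forall fun j => ?_)
  have hint : Integrable (fun k => (sysState (Ps j) f (s j) (x j) (μ j)).patMean f F
      (fun _ : Fin k => unitObs hn)) (poissonMeasure α.toNNReal) :=
    integrable_of_abs_le Measurable.of_discrete (hpat j)
  show ∫ k, D j k ∂_ = _
  simp only [D]
  rw [integral_sub hint (integrable_const _), repMean_add hf (hμ j) hα hn]
  simp

lemma pattern_step (hL : LogS) (hf : Smooth f A) (hN : ∀ j, 0 < Ns j) (hμ : ∀ j, 0 ≤ μ j)
    (hα : 0 ≤ α) (hx : ∀ j i, x j i ∈ Set.Icc (1 : ℝ) 2)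
    (h : Approx Ns Ps (fun j => sysState (Ps j) f (s j) (x j) (μ j)) ξ) :
    Tendsto (fun j => logPartS (Ps j) f (s j) (x j) (μ j + α) - logPartS (Ps j) f (s j) (x j) (μ j)
      - α * patValue f (ξ j).m (ξ j).q) atTop (𝓝 0) := by
  set D : ℕ → ℕ → ℝ := fun j k => (sysState (Ps j) f (s j) (x j) (μ j)).logMean f k -
    k * patValue f (ξ j).m (ξ j).q
  have hk : ∀ k, Tendsto (fun j => D j k) atTop (𝓝 0) := fun k =>
    hL A f hf Ns Ps _ ξ hN (fun j => sysState_good hf (x j)) h k
  have hlog : ∀ j k, |(sysState (Ps j) f (s j) (x j) (μ j)).logMean f k| ≤ k * A := by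
    intro j k
    have hG : ∀ (g : Fin k → Fin (Ns j) → ℝ) (σ : Conf (Ps j)),
        |∑ i, f (dot (g i) (unitVec σ))| ≤ k * A := fun g σ =>
      (Finset.abs_sum_le_sum_abs _ _).trans ((Finset.sum_le_sum fun i _ => hf.b0 _).trans_eq (by simp))
    have := (sysState_good (P := Ps j) (s := s j) (μ := μ j) hf (x j)).prob
    rw [State.logMean, ← Real.norm_eq_abs]
    refine (norm_integral_le_of_norm_le_const (C := (k : ℝ) * A)
      (Eventually.of_forall fun d => ?_)).trans_eq (by rw [show (sysState (Ps j) f (s j) (x j) (μ j)).law.real Set.univ = 1 from probReal_univ, mul_one])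
    refine (norm_integral_le_of_norm_le_const (C := (k : ℝ) * A)
      (Eventually.of_forall fun g => ?_)).trans_eq (by simp)
    have hg := sysState_good (P := Ps j) (s := s j) (μ := μ j) hf (x j)
    set w := (sysState (Ps j) f (s j) (x j) (μ j)).w d
    have h1 : Real.exp (-(k * A)) ≤ ∑ σ, w σ * Real.exp (∑ i, f (dot (g i) (unitVec σ))) ∧
        ∑ σ, w σ * Real.exp (∑ i, f (dot (g i) (unitVec σ))) ≤ Real.exp (k * A) := by
      constructor
      · calc Real.exp (-(k * A)) = ∑ σ, w σ * Real.exp (-(k * A)) := by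
              rw [← Finset.sum_mul, hg.sum_one, one_mul]
          _ ≤ _ := Finset.sum_le_sum fun σ _ => mul_le_mul_of_nonneg_left
              (Real.exp_le_exp.2 (abs_le.1 (hG g σ)).1) (hg.nonneg d σ)
      · calc _ ≤ ∑ σ, w σ * Real.exp (k * A) := Finset.sum_le_sum fun σ _ =>
              mul_le_mul_of_nonneg_left (Real.exp_le_exp.2 (abs_le.1 (hG g σ)).2) (hg.nonneg d σ)
          _ = _ := by rw [← Finset.sum_mul, hg.sum_one, one_mul]
    have hp := (Real.exp_pos _).trans_le h1.1
    rw [Real.norm_eq_abs, abs_le, Real.le_log_iff_exp_le hp, Real.log_le_iff_le_exp hp]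
    exact h1
  have hlim := tendsto_integral_filter_of_dominated_convergence (μ := poissonMeasure α.toNNReal)
    (F := fun j k => D j k) (f := fun _ => 0) (fun k => 2 * A * (k : ℝ))
    (Eventually.of_forall fun j => Measurable.of_discrete.aestronglyMeasurable)
    (Eventually.of_forall fun j => Eventually.of_forall fun k => by
      rw [Real.norm_eq_abs]
      refine (abs_sub _ _).trans ?_
      rw [abs_mul, Nat.abs_cast]
      have := hlog j k
      have := mul_le_mul_of_nonneg_left (abs_patValue_le hf (ξ j)) (Nat.cast_nonneg (α := ℝ) k)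
      linarith)
    ((integrable_count α.toNNReal).const_mul _) (Eventually.of_forall hk)
  rw [integral_zero] at hlim
  refine hlim.congr' (Eventually.of_forall fun j => ?_)
  have hint : Integrable (fun k => (sysState (Ps j) f (s j) (x j) (μ j)).logMean f k)
      (poissonMeasure α.toNNReal) :=
    integrable_poisson_of_linear _ (A := 0) (B := A) fun k => (hlog j k).trans_eq (by ring)
  show ∫ k, D j k ∂_ = _
  simp only [D]
  rw [integral_sub hint ((integrable_count _).mul_const _), logPartS_add hf (hx j) (hμ j) hα,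
    integral_mul_const, P168.Toolkit.integral_count, Real.coe_toNNReal α hα]

end Vale.Agent.P157.Parisi.Sphere.Main
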