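import Vale.Agent.P157.Parisi.Sphere.Main.Energy

/-! The lower bound from the parts. -/

noncomputable section

open MeasureTheory ProbabilityTheory Filter
open scoped BigOperators NNReal ENNReal Topology

namespace Vale.Agent.P157.Parisi.Sphere.Main

open Vale.Agent.P157.Parisi.Main (smooth_nonneg smooth_meas ae_xLaw mp_cut abs_patValue_le treeExp_const unitObs unitObs_good unitObs_val)

variable {f : ℝ → ℝ} {A α : ℝ} {Q : ∀ N, Pts N}

/-- The averaged perturbed log-partition at `N`. -/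
def avgPart (Q : ∀ N, Pts N) (α : ℝ) (f : ℝ → ℝ) (N : ℕ) : ℝ :=
  ∫ x, logPartS (Q N) f (scale N) x (α * N) ∂xLaw N

/-- One step at a fixed perturbation. -/
def stepPart (Q : ∀ N, Pts N) (α : ℝ) (f : ℝ → ℝ) (N : ℕ) (x : Fin N → ℝ) : ℝ :=
  logPartS (Q (N + 1)) f (scale N) x (α * N + α) - logPartS (Q N) f (scale N) x (α * N)

lemma integrable_stepPart (hf : Smooth f A) (N : ℕ) : Integrable (stepPart Q α f N) (xLaw N) :=
  (integrable_logPartS hf).sub (integrable_logPartS hf)

/-- The mass of the grid. -/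
def gridMass (R m : ℕ) : ℝ := ∑ j ∈ Finset.range (R * m), cellW m j * 2

lemma gridMass_pos {R m : ℕ} (hR : 0 < R) (hm : 0 < m) : 0 < gridMass R m := by
  have h0 : ∀ j, 0 ≤ cellW m j := fun j => measureReal_nonneg
  refine Finset.sum_pos' (fun j _ => mul_nonneg (h0 j) zero_le_two)
    ⟨0, Finset.mem_range.2 (Nat.mul_pos hR hm), mul_pos ?_ two_pos⟩
  refine lt_of_le_of_ne (h0 0) fun h => ?_
  have h' : (gaussianReal 0 1) (Set.Ico (((0 : ℕ) : ℝ) / m) ((((0 : ℕ) : ℝ) + 1) / m)) = 0 := by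
    rcases (ENNReal.toReal_eq_zero_iff _).1 h.symm with h1 | h1
    · exact h1
    · exact absurd h1 (measure_ne_top _ _)
  have := (gaussianReal_absolutelyContinuous' 0 one_ne_zero) h'
  simp [Real.volume_Ico] at this
  have : (0 : ℝ) < m := by exact_mod_cast hm
  linarith

lemma gridSum_ge {R m : ℕ} (hm : 0 < m) (y : ℝ) {b K : ℝ} (hK : 0 ≤ K) (hb : -K ≤ b) :
    gridMass R m * Real.exp (-((R : ℝ) ^ 2 * K)) ≤ gridSum R m y b := by
  rw [gridMass, gridSum, Finset.sum_mul]
  refine Finset.sum_le_sum fun j hj => ?_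
  rw [mul_assoc]
  refine mul_le_mul_of_nonneg_left ?_ measureReal_nonneg
  refine mul_le_mul (le_mul_of_one_le_right zero_le_two (Real.one_le_cosh _))
    (Real.exp_le_exp.2 ?_) (Real.exp_pos _).le (by positivity)
  have hm' : (0 : ℝ) < m := by exact_mod_cast hm
  have h1 : (j : ℝ) / m ≤ R := by
    rw [div_le_iff₀ hm']
    exact_mod_cast (Finset.mem_range.1 hj).le
  have h2 : ((j : ℝ) / m) ^ 2 ≤ (R : ℝ) ^ 2 := pow_le_pow_left₀ (by positivity) h1 2
  nlinarith [mul_le_mul_of_nonneg_right h2 hK, mul_le_mul_of_nonneg_left hb (sq_nonneg ((j : ℝ) / m))]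

/-- The lower bound for the cavity value. -/
lemma cavVal_ge (hf : Smooth f A) {N L R m : ℕ} {P : Pts N} (hN : 0 < N) (hR : 0 < R) (hm : 0 < m)
    (T s : ℝ) (x : Fin L → ℝ) {μ : ℝ} (hμ : 0 ≤ μ) :
    -(|Real.log (gridMass R m)| + (R : ℝ) ^ 2 * ((A + |T| * A) / (2 * N) * μ)) ≤
      cavVal P f R m T s x μ := by
  set K := (A + |T| * A) / (2 * N) with hK
  have hA := smooth_nonneg hf
  have hK0 : 0 ≤ K := by positivity
  have hclamp : ∀ z, |clampT T z| ≤ |T| := fun z => by
    unfold clampT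
    rw [abs_le]
    refine ⟨(neg_le_neg (le_abs_self T)).trans (le_max_left _ _), max_le (neg_le_abs T) ?_⟩
    exact (min_le_left _ _).trans (le_abs_self T)
  have hB : ∀ (d : Dis N L) (σ : Conf P), -(K * d.1) ≤ cavB f T d σ := by
    intro d σ
    have h : |∑ a ∈ Finset.range d.1, (deriv (deriv f) (dot (d.2.1 a) (unitVec σ)) -
        clampT T (dot (d.2.1 a) (unitVec σ)) * deriv f (dot (d.2.1 a) (unitVec σ)))| ≤
        d.1 * (A + |T| * A) := by
      refine (Finset.abs_sum_le_sum_abs _ _).trans ((Finset.sum_le_sum (g := fun _ => A + |T| * A)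
        fun a _ => (abs_sub _ _).trans (add_le_add (hf.b2 _) ?_)).trans_eq
          (by rw [Finset.sum_const, Finset.card_range, nsmul_eq_mul]))
      rw [abs_mul]
      exact mul_le_mul (hclamp _) (hf.b1 _) (abs_nonneg _) (abs_nonneg _)
    rw [hK, cavB, div_mul_eq_mul_div, ← neg_div, mul_comm]
    exact div_le_div_of_nonneg_right (abs_le.1 h).1 (by positivity)
  set c := |Real.log (gridMass R m)|
  set G : Dis N L → (ℕ → ℝ) → ℝ := fun d z => Real.log (∑ σ : Conf P,
    gibbs (totalH (P := P) f s x d) σ * gridSum R m (cavY f z d σ) (cavB f T d σ))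
  have key : ∀ (d : Dis N L) (z : ℕ → ℝ), -(c + (R : ℝ) ^ 2 * (K * d.1)) ≤ G d z := by
    intro d z
    have hM := gridMass_pos hR hm
    have h1 : gridMass R m * Real.exp (-((R : ℝ) ^ 2 * (K * d.1))) ≤ ∑ σ : Conf P,
        gibbs (totalH (P := P) f s x d) σ * gridSum R m (cavY f z d σ) (cavB f T d σ) := by
      calc _ = ∑ σ : Conf P, gibbs (totalH (P := P) f s x d) σ *
            (gridMass R m * Real.exp (-((R : ℝ) ^ 2 * (K * d.1)))) := by
            rw [← Finset.sum_mul, sum_gibbs, one_mul]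
        _ ≤ _ := Finset.sum_le_sum fun σ _ => mul_le_mul_of_nonneg_left
            (gridSum_ge hm _ (by positivity) (hB d σ)) (gibbs_nonneg _ σ)
    refine le_trans ?_ (Real.log_le_log (mul_pos hM (Real.exp_pos _)) h1)
    rw [Real.log_mul hM.ne' (Real.exp_pos _).ne', Real.log_exp]
    linarith [neg_abs_le (Real.log (gridMass R m))]
  have hint : Integrable (fun d : Dis N L => -(c + (R : ℝ) ^ 2 * (K * d.1))) (disLaw N L μ) :=
    (((integrable_const c).add (((P168.Toolkit.integrable_count μ.toNNReal).const_mul K).const_mul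
      ((R : ℝ) ^ 2))).neg).comp_fst _
  have e : ∫ d, -(c + (R : ℝ) ^ 2 * (K * (d.1 : ℝ))) ∂disLaw N L μ = -(c + (R : ℝ) ^ 2 * (K * μ)) := by
    rw [disLaw, integral_fun_fst (f := fun n : ℕ => -(c + (R : ℝ) ^ 2 * (K * (n : ℝ)))),
      probReal_univ, one_smul, integral_neg,
      integral_add (integrable_const _)
        (((P168.Toolkit.integrable_count _).const_mul K).const_mul _),
      integral_const_mul, integral_const_mul,
      P168.Toolkit.integral_count, Real.coe_toNNReal μ hμ]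
    simp
  have hneg : ∀ d : Dis N L, -(c + (R : ℝ) ^ 2 * (K * d.1)) ≤ 0 := fun d => by
    have : 0 ≤ c + (R : ℝ) ^ 2 * (K * d.1) := by positivity
    linarith
  rw [← e]
  show _ ≤ ∫ d, ∫ z, G d z ∂(Measure.infinitePi fun _ : ℕ => gaussianReal 0 1) ∂disLaw N L μ
  by_cases hi : Integrable (fun d => ∫ z, G d z ∂(Measure.infinitePi fun _ : ℕ => gaussianReal 0 1))
      (disLaw N L μ)
  · refine integral_mono hint hi fun d => ?_
    by_cases hz : Integrable (G d) (Measure.infinitePi fun _ : ℕ => gaussianReal 0 1)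
    · exact le_trans (le_of_eq (by simp)) (integral_mono (integrable_const _) hz (key d))
    · rw [integral_undef hz]
      exact hneg d
  · rw [integral_undef hi]
    exact (integral_nonpos hneg)

lemma exists_step_lower (hG : CavityS) (hQ : IsNets Q) (hα : 0 < α) (hf : Smooth f A) :
    ∃ B, 0 ≤ B ∧ ∀ᶠ N : ℕ in atTop, ∀ x : Fin N → ℝ, (∀ i, x i ∈ Set.Icc (1 : ℝ) 2) →
      -B ≤ stepPart Q α f N x := by
  obtain ⟨m₀, hm₀⟩ := hG α A α f hα hf Q hQ 1 one_pos 1 one_pos
  obtain ⟨T, hT⟩ := hm₀ (m₀ + 1) (Nat.le_succ _)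
  have hA := smooth_nonneg hf
  refine ⟨|Real.log (gridMass 1 (m₀ + 1))| + (A + |T| * A) * α + α * A + 1, by positivity, ?_⟩
  filter_upwards [hT T le_rfl, eventually_gt_atTop 0] with N hN hN0 x hx
  have hμ : 0 ≤ α * N := by positivity
  have hμ' : 0 ≤ α * N + α := by linarith
  have h1 := hN (α * N + α) hμ' (by rw [add_sub_cancel_left, abs_of_pos hα]) x hx
  have h2 := cavVal_ge (P := Q N) hf (L := N) hN0 one_pos (Nat.succ_pos m₀) T (scale N) x hμ'
  simp only [Nat.cast_one, one_pow, one_mul] at h2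
  have h3 : (A + |T| * A) / (2 * N) * (α * N + α) ≤ (A + |T| * A) * α := by
    have hNR : (1 : ℝ) ≤ N := by exact_mod_cast hN0
    rw [div_mul_eq_mul_div, div_le_iff₀ (by positivity)]
    have := mul_le_mul_of_nonneg_left hNR (show 0 ≤ (A + |T| * A) * α by positivity)
    nlinarith
  have h4 := logPartS_add (P := Q N) (s := scale N) hf hx hμ hα.le
  have h5 : |∫ k, (sysState (Q N) f (scale N) x (α * N)).logMean f k ∂poissonMeasure α.toNNReal| ≤
      α * A := by
    have hg := sysState_good (P := Q N) (s := scale N) (μ := α * N) hf x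
    have hlog : ∀ k, |(sysState (Q N) f (scale N) x (α * N)).logMean f k| ≤ k * A := by
      intro k
      rw [State.logMean, ← Real.norm_eq_abs]
      have := hg.prob
      refine (norm_integral_le_of_norm_le_const (C := (k : ℝ) * A)
        (Eventually.of_forall fun d => ?_)).trans_eq
        (by rw [show (sysState (Q N) f (scale N) x (α * N)).law.real Set.univ = 1 from probReal_univ,
          mul_one])
      refine (norm_integral_le_of_norm_le_const (C := (k : ℝ) * A)
        (Eventually.of_forall fun g => ?_)).trans_eq (by simp)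
      have hb : ∀ σ : Conf (Q N), |∑ j, f (dot (g j) (unitVec σ))| ≤ k * A := fun σ =>
        (Finset.abs_sum_le_sum_abs _ _).trans ((Finset.sum_le_sum fun j _ => hf.b0 _).trans_eq
          (by simp))
      set w := (sysState (Q N) f (scale N) x (α * N)).w d
      have hlo : Real.exp (-(k * A)) ≤ ∑ σ, w σ * Real.exp (∑ j, f (dot (g j) (unitVec σ))) := by
        calc Real.exp (-(k * A)) = ∑ σ, w σ * Real.exp (-(k * A)) := by
              rw [← Finset.sum_mul, hg.sum_one, one_mul]
          _ ≤ _ := Finset.sum_le_sum fun σ _ => mul_le_mul_of_nonneg_left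
              (Real.exp_le_exp.2 (abs_le.1 (hb σ)).1) (hg.nonneg d σ)
      have hhi : ∑ σ, w σ * Real.exp (∑ j, f (dot (g j) (unitVec σ))) ≤ Real.exp (k * A) := by
        calc _ ≤ ∑ σ, w σ * Real.exp (k * A) := Finset.sum_le_sum fun σ _ =>
              mul_le_mul_of_nonneg_left (Real.exp_le_exp.2 (abs_le.1 (hb σ)).2) (hg.nonneg d σ)
          _ = _ := by rw [← Finset.sum_mul, hg.sum_one, one_mul]
      have hp := (Real.exp_pos _).trans_le hlo
      rw [Real.norm_eq_abs, abs_le, Real.le_log_iff_exp_le hp, Real.log_le_iff_le_exp hp]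
      exact ⟨hlo, hhi⟩
    refine (norm_integral_le_of_norm_le ((P168.Toolkit.integrable_count α.toNNReal).mul_const A)
      (Eventually.of_forall fun k => (Real.norm_eq_abs _).le.trans (hlog k))).trans_eq ?_
    rw [integral_mul_const, P168.Toolkit.integral_count, Real.coe_toNNReal α hα.le]
  rw [← h4] at h5
  unfold stepPart
  linarith [abs_le.1 h5]

lemma step_ge (hD : PerturbS) (hE : TreeApproxS) (hC : ContS) (hL : LogS)
    (hG : CavityS) (hP : PertChangeS) (hH : SiteS) (hQ : IsNets Q) (hα : 0 < α) (hf : Smooth f A)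
    {ε : ℝ} (hε : 0 < ε) :
    ∀ᶠ N : ℕ in atTop, ∃ v ∈ parisiSphereValues α f, v - ε ≤ avgPart Q α f (N + 1) - avgPart Q α f N := by
  by_contra hcon
  rw [not_eventually] at hcon
  obtain ⟨B, hB, hlow⟩ := exists_step_lower hG hQ hα hf
  obtain ⟨δ, hδm, hδb, hδgg, hδ0⟩ := hD α A 0 f hα hf Q (fun N => α * N)
    (fun N => by positivity) fun N => by simp
  -- the weighted defect
  set e : (N : ℕ) → (Fin N → ℝ) → ℝ := fun N x => ∑ p ∈ Finset.range N, (1 / 2) ^ p * δ N p x
  set E : ℕ → ℝ := fun N => ∫ x, e N x ∂xLaw N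
  have hδi : ∀ N p, Integrable (δ N p) (xLaw N) := fun N p =>
    integrable_of_abs_le (hδm N p) fun x => abs_le.2 ⟨by linarith [(hδb N p x).1], (hδb N p x).2⟩
  have he0 : ∀ N x, 0 ≤ e N x := fun N x =>
    Finset.sum_nonneg fun p _ => mul_nonneg (by positivity) (hδb N p x).1
  have hei : ∀ N, Integrable (e N) (xLaw N) := fun N =>
    integrable_finsetSum _ fun p _ => (hδi N p).const_mul _
  have hE0 : ∀ N, 0 ≤ E N := fun N => integral_nonneg (he0 N)
  have hElim : Tendsto E atTop (𝓝 0) := by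
    have h := tendsto_tsum_of_dominated_convergence
      (f := fun N p => if p < N then (1 / 2 : ℝ) ^ p * ∫ x, δ N p x ∂xLaw N else 0)
      (g := fun _ => (0 : ℝ)) (bound := fun p => (1 / 2 : ℝ) ^ p * 2)
      ((summable_geometric_of_lt_one (by norm_num) (by norm_num)).mul_right 2)
      (fun p => by
        refine squeeze_zero_norm (a := fun N => (1 / 2 : ℝ) ^ p * ∫ x, δ N p x ∂xLaw N) (fun N => ?_)
          (by simpa using (hδ0 p).const_mul ((1 / 2 : ℝ) ^ p))
        have h0 : 0 ≤ (1 / 2 : ℝ) ^ p * ∫ x, δ N p x ∂xLaw N :=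
          mul_nonneg (by positivity) (integral_nonneg fun x => (hδb N p x).1)
        by_cases hp : p < N
        · simp only [if_pos hp, Real.norm_eq_abs, abs_of_nonneg h0, le_refl]
        · simpa only [if_neg hp, norm_zero] using h0)
      (Eventually.of_forall fun N p => by
        split_ifs
        · rw [Real.norm_eq_abs, abs_mul, abs_of_nonneg (by positivity : (0 : ℝ) ≤ (1 / 2) ^ p)]
          refine mul_le_mul_of_nonneg_left ?_ (by positivity)
          simpa using norm_integral_le_of_norm_le_const (μ := xLaw N)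
            (Eventually.of_forall fun x => show ‖δ N p x‖ ≤ 2 from
              abs_le.2 ⟨by linarith [(hδb N p x).1], (hδb N p x).2⟩)
        · simp)
    rw [tsum_zero] at h
    refine h.congr fun N => ?_
    rw [tsum_eq_sum (s := Finset.range N) fun p hp => if_neg (by simpa using hp)]
    simp only [E, e]
    rw [integral_finsetSum _ fun p _ => (hδi N p).const_mul _]
    exact Finset.sum_congr rfl fun p hp => by
      rw [if_pos (by simpa using hp), integral_const_mul]
  set R : ℕ → ℝ := fun N => 1 / Real.sqrt (E N + 1 / ((N : ℝ) + 1))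
  have hR : ∀ N, 0 < R N := fun N => by
    have := hE0 N
    positivity
  have hREz : Tendsto (fun N => Real.sqrt (E N + 1 / ((N : ℝ) + 1))) atTop (𝓝 0) := by
    simpa using (hElim.add (tendsto_one_div_add_atTop_nhds_zero_nat)).sqrt
  -- good parameters
  have hsel : ∀ N, ∃ x : Fin N → ℝ, (∀ i, x i ∈ Set.Icc (1 : ℝ) 2) ∧
      stepPart Q α f N x + R N * e N x ≤ ∫ y, (stepPart Q α f N y + R N * e N y) ∂xLaw N := by
    intro N
    have hint := (integrable_stepPart (Q := Q) (α := α) hf N).add ((hei N).const_mul (R N))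
    obtain ⟨x, hx1, hx2⟩ := exists_notMem_null_le_integral hint
      (ae_iff.1 (ae_xLaw N))
    exact ⟨x, not_not.1 hx1, hx2⟩
  choose x hx hsel using hsel
  obtain ⟨Ns, hNs, hbad⟩ := extraction_of_frequently_atTop
    (hcon.and_eventually ((eventually_gt_atTop 0).and hlow))
  have hNt : Tendsto Ns atTop atTop := hNs.tendsto_atTop
  -- the selected defects vanish
  have hsel' : ∀ j, R (Ns j) * e (Ns j) (x (Ns j)) ≤
      (avgPart Q α f (Ns j + 1) - avgPart Q α f (Ns j)) + R (Ns j) * E (Ns j) + B +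
        |(∫ y, logPartS (Q (Ns j + 1)) f (scale (Ns j + 1)) y (α * Ns j + α) ∂xLaw (Ns j + 1)) -
          ∫ y, logPartS (Q (Ns j + 1)) f (scale (Ns j)) y (α * Ns j + α) ∂xLaw (Ns j)| ∧
      stepPart Q α f (Ns j) (x (Ns j)) ≤
      (avgPart Q α f (Ns j + 1) - avgPart Q α f (Ns j)) + R (Ns j) * E (Ns j) +
        |(∫ y, logPartS (Q (Ns j + 1)) f (scale (Ns j + 1)) y (α * Ns j + α) ∂xLaw (Ns j + 1)) -
          ∫ y, logPartS (Q (Ns j + 1)) f (scale (Ns j)) y (α * Ns j + α) ∂xLaw (Ns j)| := by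
    intro j
    have h1 := hsel (Ns j)
    rw [integral_add (integrable_stepPart hf _) ((hei _).const_mul _), integral_const_mul] at h1
    have h2 : ∫ y, stepPart Q α f (Ns j) y ∂xLaw (Ns j) =
        (∫ y, logPartS (Q (Ns j + 1)) f (scale (Ns j)) y (α * Ns j + α) ∂xLaw (Ns j)) -
          avgPart Q α f (Ns j) := integral_sub (integrable_logPartS hf) (integrable_logPartS hf)
    have h3 : avgPart Q α f (Ns j + 1) =
        ∫ y, logPartS (Q (Ns j + 1)) f (scale (Ns j + 1)) y (α * Ns j + α) ∂xLaw (Ns j + 1) := by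
      simp only [avgPart]
      push_cast
      ring_nf
    have h4 := (hbad j).2.2 (x (Ns j)) (hx _)
    have h5 := mul_nonneg (hR (Ns j)).le (he0 (Ns j) (x (Ns j)))
    have h6 : E (Ns j) = ∫ y, e (Ns j) y ∂xLaw (Ns j) := rfl
    set Q1 := ∫ y, logPartS (Q (Ns j + 1)) f (scale (Ns j + 1)) y (α * Ns j + α) ∂xLaw (Ns j + 1)
    set Q2 := ∫ y, logPartS (Q (Ns j + 1)) f (scale (Ns j)) y (α * Ns j + α) ∂xLaw (Ns j)
    constructor <;> linarith [neg_abs_le (Q1 - Q2)]
  have hPz : Tendsto (fun N : ℕ => |(∫ y, logPartS (Q (N + 1)) f (scale (N + 1)) y (α * N + α) ∂xLaw (N + 1)) -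
      ∫ y, logPartS (Q (N + 1)) f (scale N) y (α * N + α) ∂xLaw N|) atTop (𝓝 0) := by
    simpa using (hP α A α f hα hf Q (fun N => α * N + α) (fun N => by positivity)
      fun N => by rw [add_sub_cancel_left, abs_of_pos hα]).abs
  have hRE : Tendsto (fun N => R N * E N) atTop (𝓝 0) := by
    refine squeeze_zero (fun N => mul_nonneg (hR N).le (hE0 N)) (fun N => ?_) hREz
    simp only [R]
    have h1 : 0 < E N + 1 / ((N : ℝ) + 1) := add_pos_of_nonneg_of_pos (hE0 N) (by positivity)
    rw [div_mul_eq_mul_div, one_mul, div_le_iff₀ (Real.sqrt_pos.2 h1), Real.mul_self_sqrt h1.le]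
    have : (0 : ℝ) ≤ 1 / ((N : ℝ) + 1) := by positivity
    linarith
  -- an upper bound for the increments along the sequence
  obtain ⟨v₀, hv₀⟩ : (parisiSphereValues α f).Nonempty :=
    ⟨_, 0, Fin.elim0, fun _ => 0, ⟨fun i => i.elim0, fun i => i.elim0, fun i => i.elim0,
      monotone_const, le_rfl, zero_le_one⟩, rfl⟩
  have hinc : ∀ j, avgPart Q α f (Ns j + 1) - avgPart Q α f (Ns j) < v₀ - ε := fun j => by
    have := (hbad j).1
    push_neg at this
    exact this v₀ hv₀
  have hez : Tendsto (fun j => e (Ns j) (x (Ns j))) atTop (𝓝 0) := by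
    set C := |v₀| + ε + B + 2 with hC'
    have hev : ∀ᶠ j in atTop, e (Ns j) (x (Ns j)) ≤ C * Real.sqrt (E (Ns j) + 1 / ((Ns j : ℝ) + 1)) := by
      filter_upwards [hNt.eventually ((Metric.tendsto_nhds.1 hPz) 1 one_pos),
        hNt.eventually ((Metric.tendsto_nhds.1 hRE) 1 one_pos)] with j h1 h2
      simp only [Real.dist_eq, sub_zero, abs_abs] at h1 h2
      have h3 := (hsel' j).1
      have h4 : R (Ns j) * e (Ns j) (x (Ns j)) ≤ C := by
        linarith [hinc j, le_abs_self v₀, le_abs_self (R (Ns j) * E (Ns j))]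
      have h5 : 0 < E (Ns j) + 1 / ((Ns j : ℝ) + 1) :=
        add_pos_of_nonneg_of_pos (hE0 _) (by positivity)
      simp only [R] at h4
      rwa [div_mul_eq_mul_div, one_mul, div_le_iff₀ (Real.sqrt_pos.2 h5)] at h4
    refine squeeze_zero' (Eventually.of_forall fun j => he0 _ _) hev ?_
    simpa using (hREz.comp hNt).const_mul C
  set dl : ℕ → ℕ → ℝ := fun j p => δ (Ns j) p (x (Ns j))
  have hdl : ∀ p, Tendsto (fun j => dl j p) atTop (𝓝 0) := fun p => by
    refine squeeze_zero' (Eventually.of_forall fun j => (hδb _ _ _).1)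
      (g := fun j => 2 ^ p * e (Ns j) (x (Ns j))) ?_ (by simpa using hez.const_mul ((2 : ℝ) ^ p))
    filter_upwards [hNt.eventually (eventually_gt_atTop p)] with j hj
    have h := Finset.single_le_sum (f := fun i => (1 / 2 : ℝ) ^ i * δ (Ns j) i (x (Ns j)))
      (fun i _ => mul_nonneg (by positivity) (hδb _ _ _).1) (Finset.mem_range.2 hj)
    calc dl j p = 2 ^ p * ((1 / 2 : ℝ) ^ p * δ (Ns j) p (x (Ns j))) := by
          rw [← mul_assoc, ← mul_pow]; norm_num [dl]
      _ ≤ _ := mul_le_mul_of_nonneg_left h (by positivity)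
  obtain ⟨φ, ξ, hφ, hap⟩ := hE Ns (fun j => Q (Ns j)) (fun j => sysState (Q (Ns j)) f (scale (Ns j)) (x (Ns j)) (α * Ns j))
    hNt (fun j => sysState_good hf _) dl hdl fun j p => hδgg _ _ _ (hx _)
  set M : ℕ → ℕ := fun j => Ns (φ j) with hMdef
  have hMt : Tendsto M atTop atTop := hNt.comp hφ.tendsto_atTop
  have hM0 : ∀ j, 0 < M j := fun j => (hbad (φ j)).2.1
  have hμ : ∀ j, 0 ≤ α * (M j : ℝ) := fun j => by positivity
  have hap' := approx_shift (Ps := fun j => Q (M j)) (s := fun j => scale (M j)) (x := fun j => x (M j))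
    (μ := fun j => α * (M j : ℝ)) hC hf hM0 hμ hα.le hap
  have hpat := pattern_step (Ps := fun j => Q (M j)) (s := fun j => scale (M j)) (x := fun j => x (M j))
    (μ := fun j => α * (M j : ℝ)) hL hf hM0 hμ hα.le (fun j => hx _) hap
  have hε4 : 0 < ε / 4 := by linarith
  obtain ⟨R₀, hR₀⟩ := hH α A α f hα hf M (fun j => Q (M j)) (fun j => x (M j))
    (fun j => α * (M j : ℝ) + α) ξ hMt hM0 (fun j => by positivity)
    (fun j => by rw [add_sub_cancel_left, abs_of_pos hα]) hap' (ε / 4) hε4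
  set K := max R₀ 1
  obtain ⟨m₁, hm₁⟩ := hR₀ K (le_max_left _ _)
  obtain ⟨m₂, hm₂⟩ := hG α A α f hα hf Q hQ (ε / 4) hε4 K (lt_of_lt_of_le one_pos (le_max_right _ _))
  obtain ⟨T₁, hT₁⟩ := hm₁ (max m₁ m₂) (le_max_left _ _)
  obtain ⟨T₂, hT₂⟩ := hm₂ (max m₁ m₂) (le_max_right _ _)
  set T := max T₁ T₂
  obtain ⟨j, h1, h2, h3, h4, h5⟩ := ((hT₁ T (le_max_left _ _)).and
    ((hMt.eventually (hT₂ T (le_max_right _ _))).and
      (((Metric.tendsto_nhds.1 hpat) (ε / 4) hε4).and
        ((hMt.eventually ((Metric.tendsto_nhds.1 hRE) (ε / 16) (by linarith))).and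
          (hMt.eventually ((Metric.tendsto_nhds.1 hPz) (ε / 16) (by linarith))))))).exists
  simp only [Real.dist_eq, sub_zero, abs_abs] at h3 h4 h5
  have h2' := h2 (α * (M j : ℝ) + α) (by positivity)
    (by rw [add_sub_cancel_left, abs_of_pos hα]) (x (M j)) (hx _)
  have h6 := (hsel' (φ j)).2
  have h7 := (hbad (φ j)).1
  push_neg at h7
  have h8 := h7 (parisiSphere α f (ξ j).m (ξ j).q)
    ⟨(ξ j).r, (ξ j).m, (ξ j).q, (ξ j).isPath, rfl⟩
  have h9 : parisiSphere α f (ξ j).m (ξ j).q = α * patValue f (ξ j).m (ξ j).q +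
      siteSphere α f (ξ j).m (ξ j).q := rfl
  simp only [stepPart] at h6
  simp only [hMdef] at h1 h2' h3 h4 h5
  linarith [abs_le.1 h3.le, le_abs_self (R (Ns (φ j)) * E (Ns (φ j)))]

theorem lower_of (hD : PerturbS) (hE : TreeApproxS) (hC : ContS) (hL : LogS)
    (hG : CavityS) (hP : PertChangeS) (hH : SiteS) (hQs : NetsS) : LowerS := by
  intro α A f hα hf ε hε
  obtain ⟨Q, hQ⟩ := hQs
  obtain ⟨N₀, hN₀⟩ := eventually_atTop.1
    (step_ge hD hE hC hL hG hP hH hQ hα hf (show 0 < ε / 4 by linarith))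
  have hA := smooth_nonneg hf
  -- the averaged partition against the pressure
  have hclose : ∀ N : ℕ, 0 < N → |avgPart Q α f N - N * meanPressure sphereLaw α f N| ≤
      scale N ^ 2 + A * (Real.sqrt (α * N) + 1) + (2 + A * α) := by
    intro N hN
    have hN' : (1 : ℝ) ≤ N := by exact_mod_cast hN
    have hp := pressure_close (P := Q N) (α := α) hf hN ⌊α * N⌋₊ rfl (hQ N hN)
    have hnet : 2 * netTol N + A * netTol N * N * ⌊α * N⌋₊ ≤ 2 + A * α := by
      have hfl : (⌊α * N⌋₊ : ℝ) ≤ α * N := Nat.floor_le (by positivity)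
      have h3 : ((N : ℝ) + 1) ^ 3 ≥ N ^ 2 := by nlinarith [pow_nonneg (Nat.cast_nonneg (α := ℝ) N) 3]
      have h4 : netTol N * N ^ 2 ≤ 1 := by
        rw [netTol, div_mul_eq_mul_div, one_mul, div_le_one (by positivity)]; exact h3
      have h5 : netTol N ≤ 1 := by
        rw [netTol, div_le_one (by positivity)]; exact one_le_pow₀ (by linarith)
      have h0 : 0 ≤ netTol N := by unfold netTol; positivity
      have h6 : A * netTol N * N * ⌊α * N⌋₊ ≤ A * α * (netTol N * N ^ 2) := by
        calc A * netTol N * N * ⌊α * N⌋₊ ≤ A * netTol N * N * (α * N) :=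
              mul_le_mul_of_nonneg_left hfl (by positivity)
          _ = _ := by ring
      linarith [mul_le_mul_of_nonneg_left h4 (show 0 ≤ A * α by positivity)]
    rw [avgPart, ← show ∫ _x : Fin N → ℝ, (N : ℝ) * meanPressure sphereLaw α f N ∂xLaw N =
      N * meanPressure sphereLaw α f N by simp, ← integral_sub (integrable_logPartS hf) (integrable_const _)]
    simpa using norm_integral_le_of_norm_le_const (μ := xLaw N) ((ae_xLaw N).mono fun x hx =>
      show ‖logPartS (Q N) f (scale N) x (α * N) - N * meanPressure sphereLaw α f N‖ ≤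
          scale N ^ 2 + A * (Real.sqrt (α * N) + 1) + (2 + A * α) by
        rw [Real.norm_eq_abs]
        have h1 := logPartS_close (P := Q N) (s := scale N) hf hα.le hN hx
        rw [abs_sub_comm] at hp
        exact (abs_sub_le _ (patLog f (Q N) ⌊α * N⌋₊) _).trans (by linarith))
  have herr : Tendsto (fun N : ℕ => (scale N ^ 2 + A * (Real.sqrt (α * N) + 1) + (2 + A * α) + |avgPart Q α f N₀|) / N)
      atTop (𝓝 0) := by
    have h1 : Tendsto (fun N : ℕ => (N : ℝ) ^ (-(1 / 4) : ℝ)) atTop (𝓝 0) :=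
      (tendsto_rpow_neg_atTop (by norm_num)).comp tendsto_natCast_atTop_atTop
    have h2 : Tendsto (fun N : ℕ => A * Real.sqrt α * (N : ℝ) ^ (-(1 / 2) : ℝ)) atTop (𝓝 0) := by
      simpa using ((tendsto_rpow_neg_atTop (by norm_num)).comp tendsto_natCast_atTop_atTop).const_mul
        (A * Real.sqrt α)
    have h3 : Tendsto (fun N : ℕ => (A + (2 + A * α) + |avgPart Q α f N₀|) / (N : ℝ)) atTop (𝓝 0) :=
      tendsto_const_nhds.div_atTop tendsto_natCast_atTop_atTop
    have h := (h1.add h2).add h3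
    simp only [add_zero] at h
    refine h.congr' ((eventually_gt_atTop 0).mono fun N hN => ?_)
    have hNR : (0 : ℝ) < N := by exact_mod_cast hN
    have e1 : scale N ^ 2 = (N : ℝ) ^ (-(1 / 4) : ℝ) * N := by
      rw [scale, ← Real.rpow_natCast ((N : ℝ) ^ (3 / 8 : ℝ)) 2, ← Real.rpow_mul hNR.le,
        ← Real.rpow_add_one hNR.ne']
      norm_num
    have e2 : Real.sqrt (α * N) = Real.sqrt α * (N : ℝ) ^ (-(1 / 2) : ℝ) * N := by
      rw [Real.sqrt_mul hα.le, mul_assoc, ← Real.rpow_add_one hNR.ne', Real.sqrt_eq_rpow (N : ℝ)]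
      norm_num
    dsimp only
    rw [e1, e2]
    field_simp
    ring
  have hstep : ∀ N, N₀ < N → ∃ v ∈ parisiSphereValues α f,
      ((N : ℝ) - N₀) * (v - ε / 4) ≤ avgPart Q α f N - avgPart Q α f N₀ := by
    intro N hN
    induction N, hN using Nat.le_induction with
    | base =>
      obtain ⟨v, hv, h⟩ := hN₀ N₀ le_rfl
      exact ⟨v, hv, by push_cast; simpa using h⟩
    | succ N hN ih =>
      obtain ⟨v, hv, h⟩ := ih
      obtain ⟨w, hw, h'⟩ := hN₀ N (by omega)
      have hNN : (N₀ : ℝ) ≤ N := by exact_mod_cast (by omega : N₀ ≤ N)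
      rcases le_total v w with hvw | hvw
      · exact ⟨v, hv, by push_cast; linarith⟩
      · have := mul_le_mul_of_nonneg_left (sub_le_sub_right hvw (ε / 4)) (sub_nonneg.2 hNN)
        exact ⟨w, hw, by push_cast; linarith⟩
  filter_upwards [eventually_gt_atTop N₀, eventually_gt_atTop 0,
    (Metric.tendsto_nhds.1 herr) (ε / 8) (by linarith),
    eventually_ge_atTop (2 * N₀), tendsto_natCast_atTop_atTop.eventually
      (eventually_gt_atTop (4 * ((N₀ : ℝ) * (α * A)) / ε))] with N hN hN1 hN2 hN3 hN4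
  obtain ⟨v, hv, h⟩ := hstep N hN
  refine ⟨v, hv, ?_⟩
  rw [Real.dist_eq, sub_zero] at hN2
  have hNR : (0 : ℝ) < N := by exact_mod_cast hN1
  have hh := (abs_lt.1 hN2).2
  rw [div_lt_iff₀ hNR] at hh
  have hc := abs_le.1 (hclose N hN1)
  have h2 : 2 * (N₀ : ℝ) ≤ N := by exact_mod_cast hN3
  by_contra hv2
  push_neg at hv2
  have h3 := mul_le_mul_of_nonneg_left (hv2.le) (show (0 : ℝ) ≤ (N : ℝ) - N₀ by linarith)
  have h4 : |meanPressure sphereLaw α f N| ≤ α * A := by
    have := isProb_sphereLaw hN1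
    set M := ⌊α * (N : ℝ)⌋₊
    have hb : ∀ g : Fin M → Fin N → ℝ, ∀ y : Fin N → ℝ,
        |∑ a, f ((∑ i, g a i * y i) / Real.sqrt N)| ≤ M * A := fun g y =>
      (Finset.abs_sum_le_sum_abs _ _).trans ((Finset.sum_le_sum fun a _ => hf.b0 _).trans_eq (by simp))
    have hfm := smooth_meas hf
    have hp : |∫ g, (1 / (N : ℝ)) * Real.log (∫ y, Real.exp (∑ a : Fin M,
        f ((∑ i, g a i * y i) / Real.sqrt N)) ∂sphereLaw N) ∂patterns M N| ≤ 1 / N * (M * A) := by
      have : IsProbabilityMeasure (patterns M N) := by unfold patterns; infer_instance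
      simpa using norm_integral_le_of_norm_le_const (μ := patterns M N) (Eventually.of_forall fun g =>
        show ‖(1 / (N : ℝ)) * Real.log (∫ y, Real.exp (∑ a : Fin M,
            f ((∑ i, g a i * y i) / Real.sqrt N)) ∂sphereLaw N)‖ ≤ 1 / N * (M * A) by
          rw [Real.norm_eq_abs, abs_mul, abs_of_nonneg (by positivity : (0 : ℝ) ≤ 1 / N)]
          exact mul_le_mul_of_nonneg_left
            (abs_lint_le (by fun_prop) (hb g)) (by positivity))
    refine hp.trans ?_
    rw [one_div, inv_mul_le_iff₀ hNR]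
    have := mul_le_mul_of_nonneg_right (Nat.floor_le (show 0 ≤ α * N by positivity)) hA
    linarith
  have h5 : (N₀ : ℝ) * |meanPressure sphereLaw α f N| ≤ N₀ * (α * A) :=
    mul_le_mul_of_nonneg_left h4 (Nat.cast_nonneg _)
  rw [div_lt_iff₀ hε] at hN4
  have h7 : (N : ℝ) / 2 * (3 * ε / 4) ≤ ((N : ℝ) - N₀) * (3 * ε / 4) :=
    mul_le_mul_of_nonneg_right (by linarith) (by linarith)
  have h8 : (N₀ : ℝ) * meanPressure sphereLaw α f N ≤ N₀ * |meanPressure sphereLaw α f N| :=
    mul_le_mul_of_nonneg_left (le_abs_self _) (Nat.cast_nonneg _)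
  linarith [neg_abs_le (avgPart Q α f N₀)]

end Vale.Agent.P157.Parisi.Sphere.Main
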